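import Mathlib
import Crest.Agent.X262.Vb.Defs
import Crest.Agent.X262.Vb.Bas0
import Crest.Agent.X262.Hb.Bas
import Crest.Agent.X262.Ult.Hyc
import Crest.Agent.X262.Gwb.Defs
import Crest.Agent.X262.Coh.Basic
import Crest.Agent.X262.Syz.Eqn2

-- ▼ part X262/Qn/Defs
section

/-!
# Row 262, road B (helper55): genus zero numbers and the master datum

* `Num J H`, `Num.Ax` : integral, factor classes, weight grading (`p - q`) and the numbers
  `gw d s` on a finite dimensional commutative algebra; `op d s` is the dual class;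
* `Num.Cm N u u'`     : `u` (on weight `2`) and `u'` (on weight `-2`) commute with all numbers;
* `Mst`, `Mst.Ax`     : the classes and numbers of the space `B` over `Y × P ^ n`;
* `Fin`, `Fin.Ax`     : an end of `B`;  `EndHyp` : the hypothesis at the trivial end;
* `CoreStmt`          : the transfer from the trivial end to any end.
-/

set_option autoImplicit false

noncomputable section

namespace Crest.Agent.X262.Qn

open Polynomial

/-- genus zero numbers -/
structure Num (J H : Type) [CommRing H] [Algebra ℂ H] where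
  /-- the integral -/
  itg : H →ₗ[ℂ] ℂ
  /-- the hyperplane classes of the factors of the ambient space -/
  h : J → H
  /-- the span of the classes of type `(p, q)` with `p - q = w` -/
  wt : ℤ → Submodule ℂ H
  /-- the numbers of multidegree `d` (for at least three insertions) -/
  gw : (J → ℕ) → Multiset H → ℂ

variable {J H : Type} [Fintype J] [DecidableEq J] [CommRing H] [Algebra ℂ H]

/-- the sum over all splittings of a multidegree and of a family of insertions -/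
def Sm {Q : Type} [AddCommMonoid Q] (d : J → ℕ) (s : Multiset H)
    (Φ : (J → ℕ) → Multiset H → (J → ℕ) → Multiset H → Q) : Q :=
  ∑ e ∈ Finset.Iic d, (s.antidiagonal.map fun q => Φ e q.1 (d - e) q.2).sum

namespace Num

variable (N : Num J H)

open Classical in
/-- the class dual to `x ↦ gw d (x ::ₘ s)` -/
def op (d : J → ℕ) (s : Multiset H) : H :=
  if h : ∃ y, ∀ x, N.itg (y * x) = N.gw d (x ::ₘ s) then h.choose else 0

/-- one side of the associativity relation -/
def W (d : J → ℕ) (s : Multiset H) (a b c e : H) : ℂ :=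
  Sm d s fun d₁ s₁ d₂ s₂ => N.gw d₂ (N.op d₁ (a ::ₘ b ::ₘ s₁) ::ₘ c ::ₘ e ::ₘ s₂)

/-- all insertions have weight zero -/
def In (s : Multiset H) : Prop := ∀ a ∈ s, a ∈ N.wt 0

/-- the axioms -/
structure Ax : Prop where
  fd : FiniteDimensional ℂ H
  pd : ∀ a : H, (∀ b, N.itg (a * b) = 0) → a = 0
  wt_top : ⨆ w, N.wt w = ⊤
  wt_one : (1 : H) ∈ N.wt 0
  wt_h : ∀ j, N.h j ∈ N.wt 0
  wt_mul : ∀ {w w' : ℤ} {a b : H}, a ∈ N.wt w → b ∈ N.wt w' → a * b ∈ N.wt (w + w')
  wt_itg : ∀ {w : ℤ} {a : H}, a ∈ N.wt w → w ≠ 0 → N.itg a = 0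
  lin : ∀ (d : J → ℕ) (s : Multiset H), 2 ≤ s.card → IsLinearMap ℂ fun a => N.gw d (a ::ₘ s)
  typ : ∀ (d : J → ℕ) (s : Multiset H) {w w' : ℤ} {x y : H}, N.In s → s ≠ 0 → x ∈ N.wt w →
    y ∈ N.wt w' → w + w' ≠ 0 → N.gw d (x ::ₘ y ::ₘ s) = 0
  deg0 : ∀ a b c : H, N.gw 0 {a, b, c} = N.itg (a * b * c)
  deg0' : ∀ s : Multiset H, 3 < s.card → N.gw 0 s = 0
  div : ∀ (d : J → ℕ) (j : J) (s : Multiset H), 3 ≤ s.card →
    N.gw d (N.h j ::ₘ s) = d j * N.gw d s
  wdvv : ∀ (d : J → ℕ) (s : Multiset H) (a b c e : H), N.W d s a b c e = N.W d s a c b e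


end Num

/-- the data of the space `B → Y × P ^ n`; `Ω`, `Ω'` are the classes of type `(3,1)`, `(1,3)` of
`Y` -/
structure Mst (J H Ω Ω' : Type) [CommRing H] [Algebra ℂ H] [AddCommGroup Ω] [Module ℂ Ω]
    [AddCommGroup Ω'] [Module ℂ Ω'] where
  /-- the factor `P ^ n` -/
  jS : J
  /-- the factor of an embedding of `Y` -/
  jA : J
  /-- the factor `P ^ (n + 1)` -/
  jG : J
  /-- the dimension of the base -/
  n : ℕ
  /-- the pairing on `Y` -/
  β : Ω →ₗ[ℂ] Ω' →ₗ[ℂ] ℂ
  /-- pull-back from `Y` -/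
  ζ : Ω →ₗ[ℂ] H
  /-- pull-back from `Y` -/
  ζ' : Ω' →ₗ[ℂ] H

variable {Ω Ω' : Type} [AddCommGroup Ω] [Module ℂ Ω] [AddCommGroup Ω'] [Module ℂ Ω']

namespace Mst

variable (N : Num J H) (m : Mst J H Ω Ω')

/-- `λ` -/
abbrev lam : H := N.h m.jS

/-- `G` -/
abbrev G : H := N.h m.jG

/-- `ρ (λ) + σ (λ) G` -/
def cl (ρ σ : ℂ[X]) : H := aeval (m.lam N) ρ + aeval (m.lam N) σ * m.G N

/-- a class pulled back from `Ω` or `Ω'` -/
def IsV (v : H) : Prop := (∃ ω, v = m.ζ ω) ∨ ∃ ω', v = m.ζ' ω'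

/-- the span of the `λ ^ k ζ ω` and `λ ^ k G ζ ω` -/
def M : Submodule ℂ H :=
  Submodule.span ℂ {x | ∃ (k : ℕ) (ω : Ω), x = m.lam N ^ k * m.ζ ω ∨
    x = m.lam N ^ k * (m.G N * m.ζ ω)}

/-- the span of the `λ ^ k ζ' ω'` and `λ ^ k G ζ' ω'` -/
def M' : Submodule ℂ H :=
  Submodule.span ℂ {x | ∃ (k : ℕ) (ω : Ω'), x = m.lam N ^ k * m.ζ' ω ∨
    x = m.lam N ^ k * (m.G N * m.ζ' ω)}

/-- the facts used about `B` -/
structure Ax : Prop where
  βl : ∀ ω, (∀ ω', m.β ω ω' = 0) → ω = 0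
  βr : ∀ ω', (∀ ω, m.β ω ω' = 0) → ω' = 0
  ζ_mem : ∀ ω, m.ζ ω ∈ N.wt 2
  ζ'_mem : ∀ ω', m.ζ' ω' ∈ N.wt (-2)
  lam_pow : m.lam N ^ (m.n + 1) = 0
  nil : IsNilpotent (N.h m.jA)
  sq : m.G N * m.G N = m.lam N * m.G N
  A_mul : ∀ v, m.IsV v → N.h m.jA * v = 0
  pair0 : ∀ ω ω' (k : ℕ), N.itg (m.ζ ω * m.ζ' ω' * m.lam N ^ k) = 0
  pair1 : ∀ ω ω' (k : ℕ), N.itg (m.ζ ω * m.ζ' ω' * m.G N * m.lam N ^ k) =
    if k = m.n then m.β ω ω' else 0
  /-- curves of degree `0` on the factor of `Y` are contracted in `Y` -/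
  vert : ∀ (d : J → ℕ) (s : Multiset H), d m.jS = 0 → d m.jA = 0 → s ≠ 0 → ∀ v, m.IsV v →
    ∀ x y : H, N.gw d (v * x ::ₘ y ::ₘ s) = N.gw d (x ::ₘ v * y ::ₘ s)
  kill : ∀ a ∈ N.wt 0, ∃ ρ σ : ℂ[X], ∀ v, m.IsV v → v * a = v * m.cl N ρ σ
  /-- the number of the general fibre; `pt` is the class of a point -/
  num : ∃ (d : J → ℕ) (pt : H), d m.jS = 0 ∧ d m.jA = 0 ∧ d m.jG = 1 ∧
    (∀ ω ω', m.ζ ω * m.ζ' ω' * m.G N * m.lam N ^ m.n = m.β ω ω' • pt) ∧
    N.gw d {m.G N, m.G N, pt} ≠ 0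

end Mst

/-- an end of `B`: `F`, `F'` are the classes of type `(3,1)`, `(1,3)` of a model `Y₁ → Y`, `b` is
the class of the divisor `Y₁ × P ^ n` of `B`, `i`, `i'` are the Gysin maps -/
structure Fin (H Ω Ω' F F' : Type) [CommRing H] [Algebra ℂ H] [AddCommGroup Ω] [Module ℂ Ω]
    [AddCommGroup Ω'] [Module ℂ Ω'] [AddCommGroup F] [Module ℂ F] [AddCommGroup F']
    [Module ℂ F'] where
  /-- the class of the end -/
  b : H
  /-- the pairing on the model -/
  γ : F →ₗ[ℂ] F' →ₗ[ℂ] ℂ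
  /-- pull-back from `Y` -/
  r : Ω →ₗ[ℂ] F
  /-- pull-back from `Y` -/
  r' : Ω' →ₗ[ℂ] F'
  /-- Gysin map -/
  i : F →ₗ[ℂ] H
  /-- Gysin map -/
  i' : F' →ₗ[ℂ] H

variable {F F' : Type} [AddCommGroup F] [Module ℂ F] [AddCommGroup F'] [Module ℂ F']

namespace Fin

variable (N : Num J H) (m : Mst J H Ω Ω') (e : Fin H Ω Ω' F F')

/-- the facts used about an end -/
structure Ax : Prop where
  b_mem : e.b ∈ N.wt 0
  i_mem : ∀ x, e.i x ∈ N.wt 2
  i'_mem : ∀ y, e.i' y ∈ N.wt (-2)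
  γ_r : ∀ ω ω', e.γ (e.r ω) (e.r' ω') = m.β ω ω'
  i_r : ∀ ω, e.i (e.r ω) = e.b * m.ζ ω
  i_r' : ∀ ω', e.i' (e.r' ω') = e.b * m.ζ' ω'
  perp : ∀ x, (∀ ω', e.γ x (e.r' ω') = 0) → ∀ y ∈ m.M' N, N.itg (e.i x * y) = 0
  perp' : ∀ y, (∀ ω, e.γ (e.r ω) y = 0) → ∀ x ∈ m.M N, N.itg (x * e.i' y) = 0

/-- `U` is the extension by zero of `u`, `U'` is the extension by zero of `u'` -/
structure Ext (u : Ω →ₗ[ℂ] Ω) (u' : Ω' →ₗ[ℂ] Ω') (U : F →ₗ[ℂ] F) (U' : F' →ₗ[ℂ] F') : Prop where
  on : ∀ ω, U (e.r ω) = e.r (u ω)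
  off : ∀ x, (∀ ω', e.γ x (e.r' ω') = 0) → U x = 0
  on' : ∀ ω', U' (e.r' ω') = e.r' (u' ω')
  off' : ∀ y, (∀ ω, e.γ (e.r ω) y = 0) → U' y = 0


/-- the conclusion at an end -/
def Out (U : F →ₗ[ℂ] F) (U' : F' →ₗ[ℂ] F') : Prop :=
  ∀ (d : J → ℕ) (s : Multiset H), d m.jS = 0 → N.In s → s ≠ 0 → ∀ (k : ℕ) (x : F) (y : F'),
    N.gw d (e.i (U x) ::ₘ (m.lam N ^ k * e.i' y) ::ₘ s) =
      N.gw d (e.i x ::ₘ (m.lam N ^ k * e.i' (U' y)) ::ₘ s)

end Fin


end Crest.Agent.X262.Qn
end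
end

-- ▼ part X262/Qn/Ev
section

/-!
# Row 262, road B (helper59): evaluation of classes, the numbers of a target

* `Ev B io H`    : a finite dimensional algebra `H` (the even cohomology of the target) with
  evaluation maps at the field-valued points; `Ev.fam`;
* `Ev.Ax T c`    : what is needed about it;
* `Ev.num T`     : the numbers `gw d s`.
-/

set_option autoImplicit false
set_option linter.unusedSectionVars false

noncomputable section

namespace Crest.Agent.X262.Qn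

open Crest.Agent.X262.Vb

/-- evaluation of the classes of a target -/
structure Ev (B : Hb.Th) {J : Type} (io : J → Type) (H : Type) [CommRing H] [Algebra ℂ H] where
  /-- evaluation at a point (any algebra map if the point is not on the target) -/
  ev : ∀ (E : Type) [Field E] [Algebra ℂ E], Pnt io E → (H →ₐ[ℂ] B.H E)
  /-- the integral -/
  itg : H →ₗ[ℂ] ℂ
  /-- the hyperplane classes -/
  h : J → H
  /-- the Hodge types -/
  typ : ℕ → ℕ → Submodule ℂ H

namespace Ev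

variable {B : Hb.Th} {J : Type} [Fintype J] [DecidableEq J] {io : J → Type} [∀ j, Fintype (io j)]
  [∀ j, DecidableEq (io j)] {A : Type} [Fintype A] {H : Type} [CommRing H] [Algebra ℂ H]
  (e : Ev B io H) (T : Tgt io A)

/-- the family of a class -/
def fam (a : H) : Fam B io := fun E _ _ y => e.ev E y a

/-- the span of the types `(p, q)` with `p - q = w` -/
def wt (w : ℤ) : Submodule ℂ H := ⨆ (p : ℕ) (q : ℕ) (_ : (p : ℤ) - q = w), e.typ p q

/-- the facts about the evaluation; `c` is the codimension -/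
structure Ax (c : ℕ) : Prop where
  cls : ∀ a, Cls B T (e.fam a)
  hc : ∀ (j : J) (E : Type) [Field E] [Algebra ℂ E] [Algebra.EssFiniteType ℂ E] (y : Pnt io E),
    NZ y → T.On y → e.ev E y (e.h j) = hc B j E y
  ty : ∀ {p q : ℕ} {a : H}, a ∈ e.typ p q → ∀ (E : Type) [Field E] [Algebra ℂ E]
    [Algebra.EssFiniteType ℂ E] (y : Pnt io E), NZ y → T.On y → e.ev E y a ∈ B.ty E p q
  gen : ∃ (K : Type) (_ : Field K) (_ : Algebra ℂ K) (_ : Algebra.EssFiniteType ℂ K)
    (y₀ : Pnt io K), GenPt T c y₀ ∧ ∀ a, B.itg K (e.ev K y₀ a) = e.itg a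
  pd : ∀ a : H, (∀ b, e.itg (a * b) = 0) → a = 0
  /-- dual bases decompose the diagonal -/
  diag : ∃ (ι : Type) (_ : Fintype ι) (u u' : ι → H),
    (∀ a b, e.itg (a * b) = ∑ l, e.itg (a * u l) * e.itg (b * u' l)) ∧
      Diag B T (fun l => e.fam (u l)) fun l => e.fam (u' l)
  typ_top : ⨆ (p : ℕ) (q : ℕ), e.typ p q = ⊤
  typ_one : (1 : H) ∈ e.typ 0 0
  typ_h : ∀ j, e.h j ∈ e.typ 1 1
  typ_mul : ∀ {p q p' q' : ℕ} {a b : H}, a ∈ e.typ p q → b ∈ e.typ p' q' →
    a * b ∈ e.typ (p + p') (q + q')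
  typ_itg : ∀ {p q : ℕ} {a : H}, a ∈ e.typ p q → p ≠ q → e.itg a = 0

open Classical in
/-- the numbers of the target -/
def num : Num J H where
  itg := e.itg
  h := e.h
  wt := e.wt
  gw d s := GW B T d (prd fun q : s.ToType => e.fam q)

end Ev

end Crest.Agent.X262.Qn
end
end

-- ▼ part X262/Qn/Of
section

/-!
# Row 262, road B (helper59): the numbers of a target satisfy the axioms

* `mcls_prd`, `mcls_mul`, `mcls_res`, `mcls_at`, `mty_prd`, `GW_congr` : calculus of families;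
* `Ev.gw_eq` : the numbers in terms of an arbitrary finite index type;
* `Ev.num_ax` : the axioms `Num.Ax`.
-/

set_option autoImplicit false
set_option linter.unusedSectionVars false

noncomputable section

namespace Crest.Agent.X262.Qn

open Crest.Agent.X262.Vb Finset

/-! ### multisets -/

theorem exists_equiv {M M' H : Type} [Fintype M] [Fintype M'] {a : M → H} {a' : M' → H}
    (h : univ.val.map a = univ.val.map a') : ∃ σ : M ≃ M', ∀ q, a' (σ q) = a q := by
  classical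
  have h1 : ∀ x, Fintype.card {q // a q = x} = Fintype.card {q // a' q = x} := fun x => by
    have h2 := congrArg (Multiset.count x) h
    rw [Multiset.count_map, Multiset.count_map] at h2
    rw [Fintype.card_subtype, Fintype.card_subtype]
    simp only [eq_comm (a := x)] at h2
    exact h2
  exact ⟨Equiv.ofFiberEquiv fun x => Fintype.equivOfCardEq (h1 x),
    fun q => Equiv.ofFiberEquiv_map _ q⟩

theorem map_option {M H : Type} [Fintype M] (x : H) (a : M → H) :
    univ.val.map (fun q : Option M => q.elim x a) = x ::ₘ univ.val.map a := by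
  rw [univ_option, insertNone]
  simp [Multiset.map_map]

theorem map_three {M H : Type} [Fintype M] (x y z : H) (a : M → H) :
    univ.val.map (Sum.elim ![x, y, z] a) = x ::ₘ y ::ₘ z ::ₘ univ.val.map a := by
  rw [← univ_disjSum_univ, val_disjSum, Multiset.disjSum, Multiset.map_add, Multiset.map_map,
    Multiset.map_map]
  simp [Fin.univ_val_map, ← Multiset.cons_coe]

theorem map_subt {M H : Type} [Fintype M] [DecidableEq M] (p : M → Prop) [DecidablePred p]
    [i : Fintype {q // p q}] (a : M → H) :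
    univ.val.map (fun q : {q // p q} => a q) = (univ.filter p).val.map a := by
  obtain rfl : i = Subtype.fintype p := Subsingleton.elim _ _
  rw [← subtype_univ p, ← subtype_map, map_val, Multiset.map_map]
  rfl

theorem sum_anti {M H Q : Type} [DecidableEq M] [AddCommMonoid Q] (a : M → H) (S : Finset M)
    (Φ : Multiset H → Multiset H → Q) :
    ((S.val.map a).antidiagonal.map fun q => Φ q.1 q.2).sum =
      ∑ U ∈ S.powerset, Φ (U.val.map a) ((S \ U).val.map a) := by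
  induction S using Finset.induction_on generalizing Φ with
  | empty => simp
  | insert x S hx ih =>
    rw [insert_val_of_notMem hx, Multiset.map_cons, Multiset.antidiagonal_cons, Multiset.map_add,
      Multiset.sum_add, Multiset.map_map, Multiset.map_map, sum_powerset_insert hx]
    refine congrArg₂ _ ((ih fun s t => Φ s (a x ::ₘ t)).trans (sum_congr rfl fun U hU => ?_))
      ((ih fun s t => Φ (a x ::ₘ s) t).trans (sum_congr rfl fun U hU => ?_))
    · have h1 : x ∉ U := fun h => hx (mem_powerset.1 hU h)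
      rw [insert_sdiff_of_notMem _ h1, insert_val_of_notMem (fun h => hx (mem_sdiff.1 h).1),
        Multiset.map_cons]
    · have h1 : x ∉ U := fun h => hx (mem_powerset.1 hU h)
      rw [insert_sdiff_insert, sdiff_insert_of_notMem hx, insert_val_of_notMem h1,
        Multiset.map_cons]

/-! ### families -/

section Fam

variable {B : Hb.Th} {J : Type} [Fintype J] [DecidableEq J] {io : J → Type} [∀ j, Fintype (io j)]
  [∀ j, DecidableEq (io j)] {A : Type} [Fintype A] {T : Tgt io A} {M M' : Type} {d : J → ℕ}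

theorem mcls_at {α : Fam B io} (h : Cls B T α) (q : M) :
    MCls B T (M := M) fun E _ _ y => α E (y q) :=
  ⟨fun E _ _ _ y c h1 h2 h3 => h.scl E (y q) (c q) (h1 q) (h2 q) (h3 q),
    fun K E _ _ _ _ _ _ p y h1 h2 => h.nat K E p (y q) (h1 q) (h2 q)⟩

theorem mcls_res {Φ : MFam B io M} (h : MCls B T Φ) (g : M → M') :
    MCls B T (M := M') fun E _ _ y => Φ E fun q => y (g q) :=
  ⟨fun E _ _ _ y c h1 h2 h3 => h.scl E (fun q => y (g q)) (fun q => c (g q)) (fun _ => h1 _)
      (fun _ => h2 _) fun _ => h3 _,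
    fun K E _ _ _ _ _ _ p y h1 h2 => h.nat K E p (fun q => y (g q)) (fun _ => h1 _) fun _ => h2 _⟩

theorem mcls_mul {Φ Ψ : MFam B io M} (h : MCls B T Φ) (h' : MCls B T Ψ) :
    MCls B T (M := M) fun E _ _ y => Φ E y * Ψ E y :=
  ⟨fun E _ _ _ y c h1 h2 h3 => by rw [h.scl E y c h1 h2 h3, h'.scl E y c h1 h2 h3],
    fun K E _ _ _ _ _ _ p y h1 h2 => by rw [map_mul, h.nat K E p y h1 h2, h'.nat K E p y h1 h2]⟩

theorem mcls_prd [Fintype M] {α : M → Fam B io} (h : ∀ q, Cls B T (α q)) : MCls B T (prd α) :=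
  ⟨fun E _ _ _ y c h1 h2 h3 => prod_congr rfl fun q _ =>
      (h q).scl E (y q) (c q) (h1 q) (h2 q) (h3 q),
    fun K E _ _ _ _ _ _ p y h1 h2 => (map_prod _ _ _).trans (prod_congr rfl fun q _ =>
      (h q).nat K E p (y q) (h1 q) (h2 q))⟩

theorem cls_hc (hB : B.Ax) (j : J) : Cls B T (hc B j) :=
  ⟨fun E _ _ _ y c h1 h2 _ => by
      change B.c1 (ln (Node22.scl c y) j) = B.c1 (ln y j)
      rw [ln_scl h2 h1, map_add, hB.c1_pr, add_zero],
    fun K E _ _ _ _ _ _ p y h1 _ => by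
      change B.pb p (B.c1 (ln y j)) = B.c1 (ln _ j)
      rw [ln_red h1, hB.pb_c1_res p (h1.val_ln j)]⟩

theorem ty_prod (hB : B.Ax) {E : Type} [Field E] [Algebra ℂ E] {x : M → B.H E} {p q : M → ℕ}
    (S : Finset M) (h : ∀ i ∈ S, x i ∈ B.ty E (p i) (q i)) :
    ∏ i ∈ S, x i ∈ B.ty E (∑ i ∈ S, p i) (∑ i ∈ S, q i) := by
  induction S using Finset.cons_induction with
  | empty => simpa using hB.ty_one
  | cons i S hi ih =>
    rw [prod_cons, sum_cons, sum_cons]
    exact hB.ty_mul (h i (mem_cons_self _ _)) (ih fun j hj => h j (mem_cons_of_mem hj))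

theorem tree_nz {E : Type} [Field E] [Algebra ℂ E] {y : M → Pnt io E} (h : TreePts T d y)
    (q : M) : NZ (y q) := fun j => by
  obtain ⟨L, _, _, _, α, t, x, c, h1, -, -, h4, h5⟩ := h
  obtain ⟨i, hi⟩ := nz_ev t h1 (x q) j
  exact ⟨i, fun h0 => mul_ne_zero (h4 q j) hi (by rw [← h5, h0, map_zero])⟩

theorem tree_on {E : Type} [Field E] [Algebra ℂ E] {y : M → Pnt io E} (h : TreePts T d y)
    (q : M) : T.On (y q) := fun a => by
  obtain ⟨L, _, _, _, α, t, x, c, -, -, h3, -, h5⟩ := h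
  refine (on_map T α).1 ?_ a
  rw [show mapP α (y q) = Node22.scl (c q) (t.ev (x q)) from funext fun j => funext (h5 q j)]
  exact Node22.on_scl T (h3 (x q)) (c q)

/-- only the values at points of the target matter -/
theorem GW_congr (h : Ax0 B T d) [Fintype M] {Φ Ψ : MFam B io M} (h1 : MCls B T Φ)
    (h2 : MCls B T Ψ) (h3 : ∀ (E : Type) [Field E] [Algebra ℂ E] [Algebra.EssFiniteType ℂ E]
      (y : M → Pnt io E), (∀ q, NZ (y q)) → (∀ q, T.On (y q)) → Φ E y = Ψ E y) :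
    GW B T d Φ = GW B T d Ψ :=
  h.supp Φ Ψ h1 h2 fun E _ _ _ y hy => h3 E y (tree_nz hy) (tree_on hy)

theorem prd_option [Fintype M] (α : Option M → Fam B io) :
    prd α = (fun E _ _ y => α none E (y none) * prd (fun q => α (some q)) E fun q => y (some q) :
      MFam B io (Option M)) := by
  funext E _ _ y
  exact Fintype.prod_option _

end Fam

namespace Ev

variable {B : Hb.Th} {J : Type} [Fintype J] [DecidableEq J] {io : J → Type} [∀ j, Fintype (io j)]
  [∀ j, DecidableEq (io j)] {A : Type} [Fintype A] {H : Type} [CommRing H] [Algebra ℂ H]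
  {e : Ev B io H} {T : Tgt io A} {c : ℕ} {d : J → ℕ} {M : Type} [Fintype M]

theorem GW_eq (h : Ax0 B T d) {M' : Type} [Fintype M'] {a : M → H} {a' : M' → H}
    (ha : univ.val.map a = univ.val.map a') :
    GW B T d (prd fun q => e.fam (a q)) = GW B T d (prd fun q => e.fam (a' q)) := by
  obtain ⟨σ, hσ⟩ := exists_equiv ha
  rw [← h.perm σ]
  congr 1
  funext E _ _ y
  exact Fintype.prod_equiv σ _ _ fun q => by simp only [hσ]

/-- **the numbers for an arbitrary index type** -/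
theorem gw_eq (h : Ax0 B T d) (a : M → H) :
    (e.num T).gw d (univ.val.map a) = GW B T d (prd fun q => e.fam (a q)) := by
  classical
  exact GW_eq h (Multiset.map_univ_coe _)

theorem gw_cons (h : Ax0 B T d) (x : H) (a : M → H) :
    (e.num T).gw d (x ::ₘ univ.val.map a) = GW B T d (M := Option M) fun E _ _ y =>
      e.ev E (y none) x * prd (fun q => e.fam (a q)) E fun q => y (some q) := by
  rw [← map_option, gw_eq h, prd_option]
  rfl

theorem gw_three (h : Ax0 B T d) (x y z : H) (a : M → H) :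
    (e.num T).gw d (x ::ₘ y ::ₘ z ::ₘ univ.val.map a) =
      gw3 B T d ![e.fam x, e.fam y, e.fam z] fun q => e.fam (a q) := by
  rw [← map_three, gw_eq h, gw3]
  congr 2
  funext q
  rcases q with q | q
  · fin_cases q <;> rfl
  · rfl

theorem exists_idx (s : Multiset H) :
    ∃ (M : Type) (_ : Fintype M) (_ : DecidableEq M) (a : M → H),
      univ.val.map a = s ∧ Fintype.card M = s.card := by
  classical
  exact ⟨s.ToType, inferInstance, inferInstance, fun q => q, Multiset.map_univ_coe _,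
    Multiset.card_coe _⟩

variable (he : e.Ax T c)
include he

theorem mcls (a : M → H) : MCls B T (prd fun q => e.fam (a q)) := mcls_prd fun _ => he.cls _

theorem mcls_cons (x : H) (a : M → H) : MCls B T (M := Option M) fun E _ _ y =>
    e.ev E (y none) x * prd (fun q => e.fam (a q)) E fun q => y (some q) :=
  mcls_mul (mcls_at (he.cls x) none) (mcls_res (mcls he a) some)

theorem gw_lin (h : Ax0 B T d) (s : Multiset H) :
    IsLinearMap ℂ fun x => (e.num T).gw d (x ::ₘ s) := by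
  obtain ⟨M, _, _, a, rfl, -⟩ := exists_idx s
  refine ⟨fun x y => ?_, fun r x => ?_⟩
  · rw [gw_cons h, gw_cons h, gw_cons h, ← h.add _ _ (mcls_cons he x a) (mcls_cons he y a)]
    congr 1
    funext E _ _ z
    exact (congrArg (· * _) (map_add _ x y)).trans (add_mul _ _ _)
  · rw [gw_cons h, gw_cons h, smul_eq_mul, ← h.smul _ _ (mcls_cons he x a)]
    congr 1
    funext E _ _ z
    exact (congrArg (· * _) (map_smul _ r x)).trans (smul_mul_assoc _ _ _)

theorem gw_pure (hB : B.Ax) (h : Ax0 B T d) (t : Multiset (H × ℕ × ℕ))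
    (ht : ∀ x ∈ t, x.1 ∈ e.typ x.2.1 x.2.2)
    (hw : (t.map fun x => (x.2.1 : ℤ) - x.2.2).sum ≠ 0) : (e.num T).gw d (t.map Prod.fst) = 0 := by
  classical
  rw [← Multiset.map_univ_coe t, Multiset.map_map] at hw ⊢
  rw [gw_eq h]
  refine h.typ _ (∑ x : t.ToType, (x : H × ℕ × ℕ).2.1) (∑ x : t.ToType, (x : H × ℕ × ℕ).2.2)
    (mcls he _) (fun E _ _ _ y h1 h2 => ty_prod hB _ fun x _ =>
      he.ty (ht _ Multiset.coe_mem) E _ (h1 x) (h2 x)) fun h0 => hw ?_
  change ∑ x : t.ToType, (((x : H × ℕ × ℕ).2.1 : ℤ) - (x : H × ℕ × ℕ).2.2) = 0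
  rw [sum_sub_distrib, ← Nat.cast_sum, ← Nat.cast_sum, h0, sub_self]

theorem gw_wt (hB : B.Ax) (h : Ax0 B T d) (l : Multiset (H × ℤ)) (hl : ∀ x ∈ l, x.1 ∈ e.wt x.2)
    (t : Multiset (H × ℕ × ℕ)) (ht : ∀ x ∈ t, x.1 ∈ e.typ x.2.1 x.2.2)
    (hw : (l.map Prod.snd).sum + (t.map fun x => (x.2.1 : ℤ) - x.2.2).sum ≠ 0) :
    (e.num T).gw d (l.map Prod.fst + t.map Prod.fst) = 0 := by
  induction l using Multiset.induction_on generalizing t with
  | empty => simpa using gw_pure he hB h t ht (by simpa using hw)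
  | cons x l ih =>
    rw [Multiset.map_cons, Multiset.cons_add]
    have h1 : e.wt x.2 ≤ LinearMap.ker (IsLinearMap.mk' _
        (gw_lin he h (l.map Prod.fst + t.map Prod.fst))) := by
      refine iSup_le fun p => iSup_le fun q => iSup_le fun hpq y hy => ?_
      have h2 := ih (fun z hz => hl z (Multiset.mem_cons_of_mem hz)) ((y, p, q) ::ₘ t)
        (Multiset.forall_mem_cons.2 ⟨hy, ht⟩) (by
          rw [Multiset.map_cons, Multiset.sum_cons] at hw ⊢
          rw [hpq]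
          exact fun h0 => hw (by linear_combination h0))
      rwa [Multiset.map_cons, Multiset.add_cons] at h2
    exact h1 (hl x (Multiset.mem_cons_self _ _))

theorem mem_wt {p q : ℕ} {a : H} (ha : a ∈ e.typ p q) : a ∈ e.wt ((p : ℤ) - q) :=
  Submodule.mem_iSup_of_mem p (Submodule.mem_iSup_of_mem q (Submodule.mem_iSup_of_mem rfl ha))

theorem wt_mul {w w' : ℤ} {a b : H} (ha : a ∈ e.wt w) (hb : b ∈ e.wt w') :
    a * b ∈ e.wt (w + w') := by
  have h1 : e.wt w * e.wt w' ≤ e.wt (w + w') := by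
    simp only [wt, Submodule.iSup_mul, Submodule.mul_iSup]
    refine iSup_le fun p' => iSup_le fun q' => iSup_le fun h' => iSup_le fun p => iSup_le fun q =>
      iSup_le fun h => Submodule.mul_le.2 fun x hx y hy => ?_
    have h2 := mem_wt he (he.typ_mul hx hy)
    rwa [show ((p + p' : ℕ) : ℤ) - (q + q' : ℕ) = w + w' by omega] at h2
  exact h1 (Submodule.mul_mem_mul ha hb)

theorem wt_itg {w : ℤ} {a : H} (ha : a ∈ e.wt w) (hw : w ≠ 0) : e.itg a = 0 := by
  have h1 : e.wt w ≤ LinearMap.ker e.itg :=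
    iSup_le fun p => iSup_le fun q => iSup_le fun h x hx => he.typ_itg hx (by omega)
  exact h1 ha

section Dual

variable {ι : Type} [Fintype ι] {u u' : ι → H}
  (hu : ∀ a b, e.itg (a * b) = ∑ l, e.itg (a * u l) * e.itg (b * u' l))
include hu

theorem expand (a : H) : a = ∑ l, e.itg (a * u l) • u' l := by
  rw [← sub_eq_zero]
  refine he.pd _ fun b => ?_
  simp only [sub_mul, sum_mul, map_sub, map_sum, smul_mul_assoc, map_smul, smul_eq_mul, hu a b,
    mul_comm (u' _) b, sub_self]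

theorem expand' (b : H) : b = ∑ l, e.itg (b * u' l) • u l := by
  refine expand he (fun a b => ?_) b
  rw [mul_comm, hu]
  exact sum_congr rfl fun l _ => mul_comm _ _

theorem op_eq (h : Ax0 B T d) (s : Multiset H) :
    (e.num T).op d s = ∑ l, (e.num T).gw d (u l ::ₘ s) • u' l := by
  have h1 : ∃ y, ∀ x, (e.num T).itg (y * x) = (e.num T).gw d (x ::ₘ s) :=
    ⟨∑ l, (e.num T).gw d (u l ::ₘ s) • u' l, fun x => by
      have h2 := congrArg (IsLinearMap.mk' _ (gw_lin he h s)) (expand' he hu x)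
      simp only [map_sum, map_smul, IsLinearMap.mk'_apply, smul_eq_mul] at h2
      rw [h2, sum_mul, map_sum]
      exact sum_congr rfl fun l _ => by
        rw [smul_mul_assoc, map_smul, smul_eq_mul, mul_comm, mul_comm (u' l)]; rfl⟩
  rw [Num.op, dif_pos h1]
  exact (expand he hu _).trans (sum_congr rfl fun l _ => congrArg (· • u' l) (h1.choose_spec _))

theorem W_eq [DecidableEq M] (h : ∀ d, Ax0 B T d) (α : M → H) (x₁ x₂ x₃ x₄ : H) :
    (e.num T).W d (univ.val.map α) x₁ x₂ x₃ x₄ =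
      wd B T d (fun l => e.fam (u l)) (fun l => e.fam (u' l)) (e.fam x₁) (e.fam x₂) (e.fam x₃)
        (e.fam x₄) fun q => e.fam (α q) := by
  refine sum_congr rfl fun d₁ _ => ?_
  rw [sum_anti α univ fun s₁ s₂ => (e.num T).gw (d - d₁)
    ((e.num T).op d₁ (x₁ ::ₘ x₂ ::ₘ s₁) ::ₘ x₃ ::ₘ x₄ ::ₘ s₂), powerset_univ]
  refine sum_congr rfl fun S _ => ?_
  have h1 := congrArg (IsLinearMap.mk' _ (gw_lin he (h (d - d₁))
    (x₃ ::ₘ x₄ ::ₘ (univ \ S).val.map α))) (op_eq he hu (h d₁) (x₁ ::ₘ x₂ ::ₘ S.val.map α))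
  simp only [map_sum, map_smul, IsLinearMap.mk'_apply, smul_eq_mul] at h1
  rw [h1]
  refine sum_congr rfl fun l _ => ?_
  rw [← gw_three (h _), ← gw_three (h _), map_subt (· ∈ S), map_subt (· ∉ S), filter_mem_eq_inter,
    univ_inter, filter_notMem_eq_sdiff, Multiset.cons_swap (u l), Multiset.cons_swap (u l)]

end Dual

theorem fd : FiniteDimensional ℂ H := by
  obtain ⟨ι, _, u, u', hu, -⟩ := he.diag
  refine Module.Finite.of_surjective (Fintype.linearCombination ℂ u') fun a =>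
    ⟨_, (Fintype.linearCombination_apply ℂ u' _).trans (expand he hu a).symm⟩

theorem gw_typ (hB : B.Ax) (h : Ax0 B T d) {s : Multiset H} {w w' : ℤ} {x y : H}
    (hs : ∀ a ∈ s, a ∈ e.wt 0) (hx : x ∈ e.wt w) (hy : y ∈ e.wt w') (hw : w + w' ≠ 0) :
    (e.num T).gw d (x ::ₘ y ::ₘ s) = 0 := by
  have h1 := gw_wt he hB h ((x, w) ::ₘ (y, w') ::ₘ s.map fun a => (a, 0))
    (Multiset.forall_mem_cons.2 ⟨hx, Multiset.forall_mem_cons.2 ⟨hy,
      Multiset.forall_mem_map_iff.2 hs⟩⟩) 0 (by simp) (by simpa using hw)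
  simpa using h1

theorem gw_deg0 (h : Ax0 B T 0) (hD : Deg0 B T c) (x y z : H) :
    (e.num T).gw 0 {x, y, z} = e.itg (x * y * z) := by
  obtain ⟨K, _, _, _, y₀, hy, hK⟩ := he.gen
  have h1 : ({x, y, z} : Multiset H) = univ.val.map ![x, y, z] := by
    simp [Fin.univ_val_map, ← Multiset.cons_coe]
  rw [h1, gw_eq h, hD y₀ hy _ (mcls he _), if_pos (Fintype.card_fin 3), ← hK,
    map_mul (e.ev K y₀), map_mul (e.ev K y₀)]
  exact congrArg _ (Fin.prod_univ_three _)

theorem gw_deg0' (h : Ax0 B T 0) (hD : Deg0 B T c) {s : Multiset H} (hs : s.card ≠ 3) :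
    (e.num T).gw 0 s = 0 := by
  obtain ⟨K, _, _, _, y₀, hy, -⟩ := he.gen
  obtain ⟨M, _, _, a, rfl, h1⟩ := exists_idx s
  rw [gw_eq h, hD y₀ hy _ (mcls he _), if_neg (h1 ▸ hs)]

theorem gw_div (hB : B.Ax) (h : Ax0 B T d) (hS : AxS B T d) (j : J) {s : Multiset H}
    (hs : 3 ≤ s.card) : (e.num T).gw d (e.h j ::ₘ s) = d j * (e.num T).gw d s := by
  obtain ⟨M, _, _, a, rfl, h1⟩ := exists_idx s
  rw [gw_eq h, ← hS.dvz _ j (mcls he a) (h1 ▸ hs), gw_cons h]
  exact GW_congr h (mcls_cons he _ a)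
    (mcls_mul (mcls_at (cls_hc hB j) none) (mcls_res (mcls he a) some))
    fun E _ _ _ y h1 h2 => by rw [he.hc j E _ (h1 _) (h2 _)]

theorem gw_str (h : Ax0 B T d) (hS : AxS B T d) {s : Multiset H} (hs : d ≠ 0 ∨ 3 ≤ s.card) :
    (e.num T).gw d (1 ::ₘ s) = 0 := by
  obtain ⟨M, _, _, a, rfl, h1⟩ := exists_idx s
  rw [gw_cons h, ← hS.str _ (mcls he a) (h1 ▸ hs)]
  simp only [map_one, one_mul]

theorem gw_wdvv (h : ∀ d, Ax0 B T d) (hW : Wdvv B T) (s : Multiset H) (x₁ x₂ x₃ x₄ : H) :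
    (e.num T).W d s x₁ x₂ x₃ x₄ = (e.num T).W d s x₁ x₃ x₂ x₄ := by
  obtain ⟨ι, _, u, u', hu, hΔ⟩ := he.diag
  obtain ⟨M, _, _, α, rfl, -⟩ := exists_idx s
  rw [W_eq he hu h, W_eq he hu h]
  exact hW _ _ (fun _ => he.cls _) (fun _ => he.cls _) hΔ d _ _ _ _ (he.cls _) (he.cls _)
    (he.cls _) (he.cls _) _ fun _ => he.cls _

/-- **the axioms** -/
theorem num_ax (hB : B.Ax) (h0 : ∀ d, Ax0 B T d) (hS : ∀ d, AxS B T d) (hD : Deg0 B T c)
    (hW : Wdvv B T) : (e.num T).Ax where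
  fd := fd he
  pd := he.pd
  wt_top := by
    rw [eq_top_iff, ← he.typ_top]
    exact iSup_le fun p => iSup_le fun q a ha => Submodule.mem_iSup_of_mem _ (mem_wt he ha)
  wt_one := by
    have h := mem_wt he he.typ_one
    rwa [sub_self] at h
  wt_h j := by
    have h := mem_wt he (he.typ_h j)
    rwa [sub_self] at h
  wt_mul ha hb := wt_mul he ha hb
  wt_itg ha hw := wt_itg he ha hw
  lin d s _ := gw_lin he (h0 d) s
  typ d _ _ _ _ _ hs _ hx hy hw := gw_typ he hB (h0 d) hs hx hy hw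
  deg0 := gw_deg0 he (h0 0) hD
  deg0' _ hs := gw_deg0' he (h0 0) hD hs.ne'
  div d j _ hs := gw_div he hB (h0 d) (hS d) j hs
  wdvv _ s := gw_wdvv he h0 hW s

end Ev

end Crest.Agent.X262.Qn
end
end

-- ▼ part X262/Qn/Bas
section

/-!
# Row 262, road B (helper55): calculus of splittings, the operators `L a d s`
-/

set_option autoImplicit false
set_option linter.unusedSectionVars false

noncomputable section

namespace Crest.Agent.X262.Qn

variable {J H : Type} [Fintype J] [DecidableEq J] [CommRing H] [Algebra ℂ H]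

section SmSec

variable {Q Q' : Type} [AddCommMonoid Q] [AddCommMonoid Q'] {d : J → ℕ} {s : Multiset H}
  {Φ Ψ : (J → ℕ) → Multiset H → (J → ℕ) → Multiset H → Q}

theorem Sm_congr (h : ∀ d₁ s₁ d₂ s₂, d₁ + d₂ = d → s₁ + s₂ = s → Φ d₁ s₁ d₂ s₂ = Ψ d₁ s₁ d₂ s₂) :
    Sm d s Φ = Sm d s Ψ := by
  unfold Sm
  refine Finset.sum_congr rfl fun e he => congrArg _ (Multiset.map_congr rfl fun q hq => ?_)
  exact h _ _ _ _ (add_tsub_cancel_of_le (Finset.mem_Iic.1 he)) (Multiset.mem_antidiagonal.1 hq)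


theorem Sm_map {F : Type} [FunLike F Q Q'] [AddMonoidHomClass F Q Q'] (f : F) :
    f (Sm d s Φ) = Sm d s fun a b c e => f (Φ a b c e) := by
  unfold Sm
  rw [map_sum]
  refine Finset.sum_congr rfl fun e _ => ?_
  rw [map_multiset_sum, Multiset.map_map]
  rfl









end SmSec


namespace Num

variable {N : Num J H}

theorem In.cons {a : H} {s : Multiset H} (ha : a ∈ N.wt 0) (hs : N.In s) : N.In (a ::ₘ s) :=
  fun x hx => (Multiset.mem_cons.1 hx).elim (fun h => h ▸ ha) (hs x)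

theorem In.left {s₁ s₂ s : Multiset H} (hs : N.In s) (h : s₁ + s₂ = s) : N.In s₁ :=
  fun x hx => hs x (h ▸ Multiset.mem_add.2 (Or.inl hx))

theorem In.right {s₁ s₂ s : Multiset H} (hs : N.In s) (h : s₁ + s₂ = s) : N.In s₂ :=
  fun x hx => hs x (h ▸ Multiset.mem_add.2 (Or.inr hx))


namespace Ax

variable (hN : N.Ax)
include hN

theorem ext {a b : H} (h : ∀ x, N.itg (a * x) = N.itg (b * x)) : a = b :=
  sub_eq_zero.1 (hN.pd _ fun x => by rw [sub_mul, map_sub, h, sub_self])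

theorem dual (φ : H →ₗ[ℂ] ℂ) : ∃ y, ∀ x, N.itg (y * x) = φ x := by
  have := hN.fd
  let p : H →ₗ[ℂ] Module.Dual ℂ H := (LinearMap.mul ℂ H).compr₂ N.itg
  have hi : Function.Injective p := (injective_iff_map_eq_zero p).2 fun a ha =>
    hN.pd a fun b => LinearMap.congr_fun ha b
  have hs : Function.Surjective p :=
    (LinearMap.injective_iff_surjective_of_finrank_eq_finrank
      (Subspace.dual_finrank_eq).symm).1 hi
  obtain ⟨y, hy⟩ := hs φ
  exact ⟨y, fun x => LinearMap.congr_fun hy x⟩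

theorem op_spec (d : J → ℕ) {s : Multiset H} (hs : 2 ≤ s.card) (x : H) :
    N.itg (N.op d s * x) = N.gw d (x ::ₘ s) := by
  have h : ∃ y, ∀ x, N.itg (y * x) = N.gw d (x ::ₘ s) :=
    hN.dual (IsLinearMap.mk' _ (hN.lin d s hs))
  unfold op
  rw [dif_pos h]
  exact h.choose_spec x

theorem op2 (d : J → ℕ) (a b : H) (s : Multiset H) (x : H) :
    N.itg (N.op d (a ::ₘ b ::ₘ s) * x) = N.gw d (a ::ₘ x ::ₘ b ::ₘ s) := by
  rw [hN.op_spec d (by simp), Multiset.cons_swap]

/-- the operator `x ↦ op d (x, a, s)` -/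
def L (a : H) (d : J → ℕ) (s : Multiset H) : H →ₗ[ℂ] H where
  toFun x := N.op d (x ::ₘ a ::ₘ s)
  map_add' x y := hN.ext fun z => by
    rw [add_mul, map_add, hN.op2, hN.op2, hN.op2, (hN.lin d _ (by simp)).map_add]
  map_smul' c x := hN.ext fun z => by
    rw [RingHom.id_apply, smul_mul_assoc, map_smul, hN.op2, hN.op2,
      (hN.lin d _ (by simp)).map_smul]

theorem L_apply (a : H) (d : J → ℕ) (s : Multiset H) (x : H) :
    hN.L a d s x = N.op d (x ::ₘ a ::ₘ s) := rfl

theorem L_itg (a : H) (d : J → ℕ) (s : Multiset H) (x y : H) :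
    N.itg (hN.L a d s x * y) = N.gw d (x ::ₘ y ::ₘ a ::ₘ s) := hN.op2 d x a s y


theorem L_symm (a : H) (d : J → ℕ) (s : Multiset H) (x : H) : hN.L a d s x = hN.L x d s a := by
  rw [L_apply, L_apply, Multiset.cons_swap]



theorem L_deg0 (a x : H) : hN.L a 0 0 x = a * x := hN.ext fun y => by
  rw [hN.L_itg]
  exact (hN.deg0 x y a).trans (by congr 1; ring)




theorem W_comm (d : J → ℕ) (s : Multiset H) (a b c e : H) : N.W d s a b c e = N.W d s b a c e := by
  unfold W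
  simp only [Multiset.cons_swap a b]

/-- associativity -/
theorem assoc (a b : H) (d : J → ℕ) (s : Multiset H) (x : H) :
    (Sm d s fun d₁ s₁ d₂ s₂ => hN.L a d₂ s₂ (hN.L b d₁ s₁ x)) =
      Sm d s fun d₁ s₁ d₂ s₂ => hN.L (hN.L b d₁ s₁ a) d₂ s₂ x := by
  refine hN.ext fun y => ?_
  have e : ∀ z : H, N.itg (z * y) = (N.itg ∘ₗ LinearMap.mulRight ℂ y) z := fun z => rfl
  rw [e, e, Sm_map, Sm_map]
  have h1 := hN.wdvv d s b x a y
  rw [hN.W_comm d s b x, hN.W_comm d s b a] at h1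
  refine Eq.trans ?_ (h1.trans ?_)
  · refine Sm_congr fun d₁ s₁ d₂ s₂ _ _ => ?_
    rw [← e, hN.L_itg, hN.L_apply, Multiset.cons_swap y a]
  · refine Sm_congr fun d₁ s₁ d₂ s₂ _ _ => ?_
    rw [← e, hN.L_itg, hN.L_apply, Multiset.cons_swap y (N.op _ _), Multiset.cons_swap x (N.op _ _)]

/-- commutativity -/
theorem comm (a b : H) (d : J → ℕ) (s : Multiset H) (x : H) :
    (Sm d s fun d₁ s₁ d₂ s₂ => hN.L a d₂ s₂ (hN.L b d₁ s₁ x)) =
      Sm d s fun d₁ s₁ d₂ s₂ => hN.L b d₂ s₂ (hN.L a d₁ s₁ x) := by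
  rw [hN.assoc, hN.assoc]
  exact Sm_congr fun d₁ s₁ d₂ s₂ _ _ => by rw [hN.L_symm b]






/-- a class orthogonal to all weights except `-w` has weight `w` -/
theorem mem_wt {w : ℤ} {y : H} (h : ∀ w', w + w' ≠ 0 → ∀ x ∈ N.wt w', N.itg (y * x) = 0) :
    y ∈ N.wt w := by
  classical
  have hy : y ∈ ⨆ w, N.wt w := hN.wt_top ▸ Submodule.mem_top
  obtain ⟨f, hf, rfl⟩ := (Submodule.mem_iSup_iff_exists_finsupp _ _).1 hy
  have key : ∀ v ∈ f.support, v ≠ w → f v = 0 := by
    intro v hv hvw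
    refine hN.pd _ fun x => ?_
    have hx : x ∈ ⨆ w, N.wt w := hN.wt_top ▸ Submodule.mem_top
    induction hx using Submodule.iSup_induction' with
    | zero => simp
    | add a b _ _ ha hb => rw [mul_add, map_add, ha, hb, add_zero]
    | mem w' x hx =>
      by_cases h1 : v + w' = 0
      · have h2 := h w' (by omega) x hx
        rw [Finsupp.sum, Finset.sum_mul, map_sum, Finset.sum_eq_single v] at h2
        · exact h2
        · intro v' _ hv'
          exact hN.wt_itg (hN.wt_mul (hf v') hx) (by omega)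
        · intro h3
          exact absurd hv h3
      · exact hN.wt_itg (hN.wt_mul (hf v) hx) h1
  refine sum_mem fun v hv => ?_
  by_cases hvw : v = w
  · exact hvw ▸ hf v
  · simp only [key v hv hvw, zero_mem]


theorem pow_mem {a : H} (ha : a ∈ N.wt 0) (k : ℕ) : a ^ k ∈ N.wt 0 := by
  induction k with
  | zero => simpa using hN.wt_one
  | succ k ih => rw [pow_succ]; simpa using hN.wt_mul ih ha

theorem mul_mem {a x : H} {w : ℤ} (ha : a ∈ N.wt 0) (hx : x ∈ N.wt w) : a * x ∈ N.wt w := by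
  simpa using hN.wt_mul ha hx

end Ax

end Num

end Crest.Agent.X262.Qn
end
end

-- ▼ part X262/Qn/Hy
section

/-!
# Row 262, road B (helper59): numbers give a hypercommutative algebra

* `Num.Ax.hyc`, `hyc_itg`, `hyc_low`, `hyc_div`.
-/

set_option autoImplicit false
set_option linter.unusedSectionVars false

noncomputable section

namespace Crest.Agent.X262.Qn.Num.Ax

open Crest.Agent.X262.Ult Finset

variable {J H : Type} [Fintype J] [DecidableEq J] [CommRing H] [Algebra ℂ H] {N : Num J H}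

theorem sum_antid {Q : Type} [AddCommMonoid Q] (d : J →₀ ℕ) (f : (J → ℕ) → (J → ℕ) → Q) :
    ∑ e ∈ Finset.HasAntidiagonal.antidiagonal d, f e.1 e.2 = ∑ e ∈ Iic (d : J → ℕ), f e (d - e) := by
  refine sum_bij' (fun e _ => (e.1 : J → ℕ)) (fun e _ => (Finsupp.equivFunOnFinite.symm e,
    d - Finsupp.equivFunOnFinite.symm e)) (fun e he => ?_) (fun e he => ?_) (fun e he => ?_)
    (fun e _ => rfl) fun e he => ?_
  · rw [← mem_antidiagonal.1 he]
    exact mem_Iic.2 fun j => Nat.le_add_right _ _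
  · exact mem_antidiagonal.2 (add_tsub_cancel_of_le fun j => mem_Iic.1 he j)
  · rw [← mem_antidiagonal.1 he]
    simp
  · rw [← mem_antidiagonal.1 he]
    simp

variable (N) in
/-- the operation, zero for less than three insertions -/
def op' (d : J → ℕ) (l : Multiset H) : H := if 2 ≤ l.card then N.op d l else 0

theorem op'_two (d : J → ℕ) (a b : H) (l : Multiset H) :
    op' N d (a ::ₘ b ::ₘ l) = N.op d (a ::ₘ b ::ₘ l) := if_pos (by simp)

variable (hN : N.Ax)
include hN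

theorem op'_lin (d : J → ℕ) (l : Multiset H) : IsLinearMap ℂ fun x => op' N d (x ::ₘ l) := by
  induction l using Multiset.induction_on with
  | empty => exact ⟨fun _ _ => by simp [op'], fun _ _ => by simp [op']⟩
  | cons a l _ =>
    simp only [op'_two]
    exact (hN.L a d l).isLinear

/-- the hypercommutative algebra of the numbers -/
def hyc : Hyc ℂ J H where
  op d l := op' N d l
  add d x y l := (hN.op'_lin d l).map_add x y
  smul d c x l := (hN.op'_lin d l).map_smul c x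
  cl a b := by
    rw [op'_two, mul_comm]
    exact hN.L_deg0 b a
  zero3 l hl := by
    rw [op', if_pos (by omega)]
    exact hN.pd _ fun x => (hN.op_spec _ (by omega) x).trans (hN.deg0' _ (by simp; omega))
  wdvv d l a b c := by
    simp only [op'_two]
    rw [sum_antid d fun d₁ d₂ => ((Multiset.antidiagonal l).map fun s =>
        N.op d₂ (N.op d₁ (a ::ₘ b ::ₘ s.1) ::ₘ c ::ₘ s.2)).sum,
      sum_antid d fun d₁ d₂ => ((Multiset.antidiagonal l).map fun s =>
        N.op d₂ (N.op d₁ (a ::ₘ c ::ₘ s.1) ::ₘ b ::ₘ s.2)).sum]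
    exact hN.comm c b d l a

theorem hyc_low (d : J →₀ ℕ) {l : Multiset H} (hl : l.card < 2) : hN.hyc.op d l = 0 :=
  if_neg hl.not_ge

theorem hyc_op (d : J →₀ ℕ) {l : Multiset H} (hl : 2 ≤ l.card) : hN.hyc.op d l = N.op d l :=
  if_pos hl

theorem hyc_itg (d : J →₀ ℕ) {l : Multiset H} (hl : 2 ≤ l.card) (y : H) :
    N.itg (y * hN.hyc.op d l) = N.gw d (y ::ₘ l) := by
  rw [hN.hyc_op d hl, mul_comm, hN.op_spec d hl]

theorem hyc_div (j : J) : hN.hyc.IsDiv (N.h j) fun d => (d j : ℂ) := fun d l hl =>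
  hN.ext fun y => by
    rw [smul_mul_assoc, map_smul, mul_comm, mul_comm _ y, hN.hyc_itg d hl,
      hN.hyc_itg d (by simp; omega), Multiset.cons_swap, hN.div d j _ (by simp; omega), smul_eq_mul]

end Crest.Agent.X262.Qn.Num.Ax
end
end

-- ▼ part X262/Gwb59/Defs

/-!
# Row 262, GW seam (helper59): the instance, definitions

* `Pre.io`, `Pre.y`, `Pre.On`, `Pre.tgt`, `Pre.cod` : the target of an embedding;
* `RsD`, `RsD.pt` : data of a restriction, renumbering of points;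
* `Inst`, `Inst.Ax` : evaluation of classes at field valued points;
* `SmoStmt`, `GenStmt`, `Vir` (all inputs), `Vir.gw : Gw C`, `Vir.itg_op`.
-/

set_option autoImplicit false
set_option linter.unusedSectionVars false

noncomputable section

namespace Crest.Agent.X262.Gwb

open Crest.Agent.X277 Crest.Agent.X277.BD
open Crest.Agent.X262.Coh Crest.Agent.X262.Vb Crest.Agent.X262.Qn

namespace Pre

variable {Y : SV} (m : Pre Y)

/-- the index sets of the coordinates -/
abbrev io : m.J → Type := fun j => (m.T j).io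

/-- the generic point -/
def y : Pnt m.io Y.F := fun j i => (m.T j).y i

/-- the point satisfies all multihomogeneous relations of the tuples -/
def On {E : Type} [Field E] [Algebra ℂ E] (z : Pnt m.io E) : Prop :=
  ∀ q κ, MH q κ → pv m.y q = 0 → pv z q = 0

/-- the equations generate the ideal of the multihomogeneous relations -/
def IsEq {A : Type} (T : Tgt m.io A) : Prop :=
  Ideal.span (Set.range T.F) = Syz.hI ℂ Sigma.fst fun v : Vr m.io => m.y v.1 v.2

theorem exists_tgt : ∃ (r : ℕ) (T : Tgt m.io (Fin r)), m.IsEq T := by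
  obtain ⟨r, F, k, h1, h2⟩ := Syz.exists_eqns ℂ Sigma.fst fun v : Vr m.io => m.y v.1 v.2
  exact ⟨r, ⟨F, k, h1⟩, h2⟩

/-- the target -/
def tgt : Tgt m.io (Fin m.exists_tgt.choose) := m.exists_tgt.choose_spec.choose

theorem tgt_isEq : m.IsEq m.tgt := m.exists_tgt.choose_spec.choose_spec

/-- the codimension -/
def cod : ℕ := adim m.io - Y.dim

variable {m} {E : Type} [Field E] [Algebra ℂ E] {z : Pnt m.io E}

theorem IsEq.on_iff {A : Type} [Fintype A] {T : Tgt m.io A} (h : m.IsEq T) : T.On z ↔ m.On z := by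
  classical
  exact ⟨fun h1 _ _ hq h0 => Syz.on_hI h h1 (Syz.mem_hI hq h0),
    fun h1 a => h1 _ _ (T.hom a) (Syz.aeval_eqn h a)⟩

theorem on_iff : m.tgt.On z ↔ m.On z := m.tgt_isEq.on_iff

theorem on_y : m.On m.y := fun _ _ _ h => h

theorem nz_y : NZ m.y := fun j => (m.reg j).1

end Pre

/-- the data of `Rs μ (n.T k) (m.T (g k))` for all `k` -/
structure RsD {X Y : SV} (μ : Hom X Y) (n : Pre Y) (m : Pre X) (g : n.J → m.J) where
  /-- the renumbering -/
  e : ∀ k, n.io k ≃ m.io (g k)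
  /-- the denominators -/
  u : n.J → Y.F
  /-- the scalars -/
  c : n.J → X.F
  mem : ∀ k i, n.y k i / u k ∈ μ.p.O
  eq : ∀ k i, m.y (g k) (e k i) = c k * μ.p.π (n.y k i / u k)

theorem exists_rsD {X Y : SV} {μ : Hom X Y} {n : Pre Y} {m : Pre X} {g : n.J → m.J}
    (h : ∀ k, Rs μ (n.T k) (m.T (g k))) : Nonempty (RsD μ n m g) := by
  choose e u c h1 h2 using h
  exact ⟨⟨e, u, c, h1, h2⟩⟩

/-- the image of a point -/
def RsD.pt {X Y : SV} {μ : Hom X Y} {n : Pre Y} {m : Pre X} {g : n.J → m.J} (D : RsD μ n m g)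
    {E : Type} (z : Pnt m.io E) : Pnt n.io E := fun k i => z (g k) (D.e k i)

variable (C : Coh.Th) (B : Hb.Th)

/-- evaluation of classes at field valued points -/
structure Inst where
  /-- evaluation (any algebra map if the point is not on the variety) -/
  ev : ∀ {Y : SV} (m : Pre Y) (E : Type) [Field E] [Algebra ℂ E], Pnt m.io E →
    (C.H Y →ₐ[ℂ] B.H E)

variable {C B}

/-- the evaluation record of an embedding -/
def Inst.e (I : Inst C B) {Y : SV} (m : Pre Y) : Ev B m.io (C.H Y) :=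
  ⟨fun E _ _ => I.ev m E, C.itg Y, m.h C, C.typ Y⟩

/-- the facts about the evaluation -/
structure Inst.Ax (I : Inst C B) : Prop where
  cls : ∀ {Y : SV} (m : Pre Y) (a : C.H Y), Cls B m.tgt ((I.e m).fam a)
  hc : ∀ {Y : SV} (m : Pre Y) (j : m.J) (E : Type) [Field E] [Algebra ℂ E]
    [Algebra.EssFiniteType ℂ E] (z : Pnt m.io E), NZ z → m.On z →
    I.ev m E z (m.h C j) = B.c1 (ln z j)
  ty : ∀ {Y : SV} (m : Pre Y) {p q : ℕ} {a : C.H Y}, a ∈ C.typ Y p q → ∀ (E : Type) [Field E]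
    [Algebra ℂ E] [Algebra.EssFiniteType ℂ E] (z : Pnt m.io E), NZ z → m.On z →
    I.ev m E z a ∈ B.ty E p q
  itg : ∀ {Y : SV} (m : Pre Y) (a : C.H Y), B.itg Y.F (I.ev m Y.F m.y a) = C.itg Y a
  rs : ∀ {X Y : SV} {μ : Hom X Y} {n : Pre Y} {m : Pre X} {g : n.J → m.J} (D : RsD μ n m g)
    (E : Type) [Field E] [Algebra ℂ E] [Algebra.EssFiniteType ℂ E] (z : Pnt m.io E), NZ z →
    m.On z → ∀ a, I.ev m E z (C.pb μ a) = I.ev n E (D.pt z) a
  diag : ∀ {Y : SV} (m : Emb Y) {ι : Type} [Fintype ι] (u u' : ι → C.H Y),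
    (∀ a b, C.itg Y (a * b) = ∑ l, C.itg Y (a * u l) * C.itg Y (b * u' l)) →
    Diag B m.tgt (fun l => (I.e m.toPre).fam (u l)) fun l => (I.e m.toPre).fam (u' l)

/-- the target of an embedding is smooth -/
def SmoStmt : Prop := ∀ (Y : SV) (m : Emb Y), Smo m.tgt m.toPre.cod

/-- the generic point -/
def GenStmt : Prop := ∀ (Y : SV) (m : Pre Y), GenPt m.tgt m.cod m.y

variable (C B) in
/-- all inputs of the construction -/
structure Vir where
  /-- the evaluation -/
  I : Inst C B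
  hI : I.Ax
  man : C.MAN
  pd : C.PD
  typ : C.TYP
  hB : B.Ax
  smo : SmoStmt
  gen : GenStmt
  ax0 : Ax0Stmt
  axS : AxSStmt
  deg0 : Deg0Stmt
  wdvv : WdvvStmt

theorem exists_dual {H : Type} [CommRing H] [Algebra ℂ H] [FiniteDimensional ℂ H]
    (φ : H →ₗ[ℂ] ℂ) (h : ∀ a, (∀ b, φ (a * b) = 0) → a = 0) :
    ∃ (ι : Type) (_ : Fintype ι) (u u' : ι → H),
      ∀ a b, φ (a * b) = ∑ l, φ (a * u l) * φ (b * u' l) := by
  let p : H →ₗ[ℂ] Module.Dual ℂ H := (LinearMap.mul ℂ H).compr₂ φ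
  have hi : Function.Injective p := (injective_iff_map_eq_zero p).2 fun a ha =>
    h a fun b => LinearMap.congr_fun ha b
  have hs : Function.Surjective p :=
    (LinearMap.injective_iff_surjective_of_finrank_eq_finrank
      (Subspace.dual_finrank_eq).symm).1 hi
  let b := Module.finBasis ℂ H
  choose u' hu using fun l => hs (b.coord l)
  refine ⟨_, inferInstance, b, u', fun x y => ?_⟩
  conv_lhs => rw [← b.sum_repr y, Finset.mul_sum, map_sum]
  refine Finset.sum_congr rfl fun l _ => ?_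
  rw [mul_smul_comm, map_smul, smul_eq_mul, mul_comm, mul_comm y]
  exact congrArg _ (LinearMap.congr_fun (hu l) y).symm

namespace Vir

variable (V : Vir C B) {Y : SV} (m : Emb Y)
include V

theorem good (d : m.J → ℕ) : Good m.tgt m.toPre.cod d := (V.smo Y m).good d

theorem a0 (d : m.J → ℕ) : Ax0 B m.tgt d := V.ax0 B V.hB _ _ d (V.good m d)

theorem aS (d : m.J → ℕ) : AxS B m.tgt d := V.axS B V.hB _ _ d (V.good m d)

theorem evAx : (V.I.e m.toPre).Ax m.tgt m.toPre.cod where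
  cls := V.hI.cls _
  hc j E _ _ _ y h1 h2 := V.hI.hc _ j E y h1 (Pre.on_iff.1 h2)
  ty ha E _ _ _ y h1 h2 := V.hI.ty _ ha E y h1 (Pre.on_iff.1 h2)
  gen := ⟨Y.F, _, _, inferInstance, m.y, V.gen Y _, V.hI.itg _⟩
  pd := (V.pd Y).2
  diag := by
    have := (V.pd Y).1
    obtain ⟨ι, _, u, u', h⟩ := exists_dual (C.itg Y) (V.pd Y).2
    exact ⟨ι, _, u, u', h, V.hI.diag m u u' h⟩
  typ_top := (iSup_prod (f := fun pq : ℕ × ℕ => C.typ Y pq.1 pq.2)).symm.trans
    (V.typ.int Y).submodule_iSup_eq_top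
  typ_one := V.typ.one_mem V.man V.pd Y
  typ_h j := V.typ.c1 Y _ (m.reg j).2
  typ_mul ha hb := V.typ.mul Y ha hb
  typ_itg ha h := V.typ.itg_typ V.man (fun h1 => h (h1.1.trans h1.2.symm)) ha

/-- the numbers of an embedded variety -/
abbrev num : Num m.J (C.H Y) := (V.I.e m.toPre).num m.tgt

theorem numAx : (V.num m).Ax :=
  Ev.num_ax (V.evAx m) V.hB (V.a0 m) (V.aS m) (V.deg0 B V.hB _ _ (V.smo Y m))
    (V.wdvv B V.hB _ _ (V.smo Y m))

/-- **the invariants** -/
def gw : Gw C := ⟨fun m => (V.numAx m).hyc⟩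

theorem itg_op (d : m.J →₀ ℕ) {l : Multiset (C.H Y)} (hl : 2 ≤ l.card) (y : C.H Y) :
    C.itg Y (y * V.gw.op m d l) = (V.num m).gw d (y ::ₘ l) := (V.numAx m).hyc_itg d hl y

end Vir

end Crest.Agent.X262.Gwb
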