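import Crest.Agent.X262.Gwb59.Ax
import Crest.Agent.X262.Syz.Fin
import Crest.Agent.X262.End66.Eqi
import Crest.Agent.X262.End66.Rx
import Crest.Agent.X262.Form88.Snc
import Crest.Agent.X262.Syz.Prod
import Crest.Agent.X262.Conc78.Defs
import Crest.Agent.X262.End36.Emb
import Crest.Agent.X262.Gwb59.Smo
import Crest.Agent.X262.Gwb.Mst

-- ▼ part X262/Gwb59/End
section

/-!
# Row 262, GW seam (helper59): the class-level axiom `END`

* `RsD.prim`, `RsD.mcls` : classes pulled back along a restriction;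
* `Vir.gw_rs` : invariants of a target which has the equations of a subvariety;
* `Vir.hyp : End66.EndStmt → V.gw.END`.
-/

set_option autoImplicit false
set_option linter.unusedSectionVars false

noncomputable section

namespace Crest.Agent.X262.Gwb

open Crest.Agent.X277 Crest.Agent.X277.BD
open Crest.Agent.X262.Coh Crest.Agent.X262.Vb Crest.Agent.X262.Qn Crest.Agent.X262.End66
open Crest.Agent.X262.Bub96.Tr (dot)

section Lw

variable {J : Type} [Fintype J] [DecidableEq J] {io : J → Type} [∀ j, Fintype (io j)]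
  [∀ j, DecidableEq (io j)]

theorem lw_single {E : Type} [Field E] [Algebra ℂ E] (j : J) (z : Pnt io E) :
    lw (Pi.single j 1) z = ln z j := by
  rw [lw, Finset.sum_eq_single j (fun b _ hb => by simp [hb]) (by simp)]
  simp

theorem adim_rx {J' : Type} [Fintype J'] {io' : J' → Type} [∀ j, Fintype (io' j)]
    (r : Rx io io') : adim io = adim io' :=
  Fintype.sum_equiv r.e _ _ fun j => by rw [Fintype.card_congr (r.ei j)]

end Lw

namespace RsD

variable {X Y : SV} {μ : Hom X Y} {n : Pre Y} {m : Pre X} {g : n.J → m.J} (D : RsD μ n m g)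

theorem prim {E : Type} [Field E] [Algebra ℂ E] {W : RZ ℂ E} {z : Pnt m.io E} (h : Prim W z) :
    Prim W (D.pt z) := fun k => ⟨fun _ => (h _).1 _, by
  obtain ⟨i, hi⟩ := (h (g k)).2
  exact ⟨(D.e k).symm i, by rwa [pt, Equiv.apply_symm_apply]⟩⟩

theorem mcls {B : Hb.Th} {M : Type} {Φ : MFam B n.io M} (h : MCls B n.tgt Φ) :
    MCls B m.tgt (M := M) fun E _ _ z => Φ E fun q => D.pt (z q) :=
  ⟨fun E _ _ _ z c h1 h2 h3 => h.scl E (fun q => D.pt (z q)) (fun q k => c q (g k))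
      (fun _ _ => h1 _ _) (fun q => D.nz (h2 q))
      fun q => Pre.on_iff.2 (D.on (Pre.on_iff.1 (h3 q))),
    fun K E _ _ _ _ _ _ p z h1 h2 => h.nat K E p (fun q => D.pt (z q)) (fun q => D.prim (h1 q))
      fun q => Pre.on_iff.2 (D.on (Pre.on_iff.1 (h2 q)))⟩

end RsD

namespace Vir

variable {C : Coh.Th} {B : Hb.Th} (V : Vir C B)

/-- the invariants of a target which has the equations of a subvariety -/
theorem gw_rs {X Y : SV} {μ : Hom X Y} {n : Emb Y} {m : Emb X} {e : n.J ≃ m.J}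
    (D : RsD μ n.toPre m.toPre e) {A : Type} [Fintype A] {T : Tgt n.toPre.io A}
    (h : Same m.tgt ((Syz.rxD D).tgt T)) {d : n.J → ℕ} {d' : m.J → ℕ} (hd : ∀ k, d' (e k) = d k)
    {M : Type} [Fintype M] (a : M → C.H Y) :
    GW B T d (prd fun q => (V.I.e n.toPre).fam (a q)) =
      (V.num m).gw d' (Finset.univ.val.map fun q => C.pb μ (a q)) := by
  rw [← rxStmt B (Syz.rxD D) T d d' hd, ← eqiStmt B V.hB _ _ _ d' (rk_of_good (V.good m d')) h,
    Ev.gw_eq (V.a0 m d')]
  exact GW_congr (V.a0 m d') (D.mcls (Ev.mcls (V.evAx n) a)) (Ev.mcls (V.evAx m) _)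
    fun E _ _ _ z h1 h2 => Finset.prod_congr rfl fun q _ =>
      (V.hI.rs D E (z q) (h1 q) (Pre.on_iff.1 (h2 q)) _).symm

/-- `END` for the numbers -/
theorem gw_hyp (hE : End66.EndStmt) {X Y : SV} {j : Hom X Y} {m : Emb Y} {n : Emb X}
    {e : m.J ≃ n.J} (D : RsD j m.toPre n.toPre e) {k₀ : m.J} {i₀ : (m.T k₀).io}
    (h0 : (m.T k₀).y i₀ ≠ 0) (hD : IsDv j ((m.T k₀).bd - pr ℂ ((m.T k₀).y i₀))) {d : m.J → ℕ}
    {d' : n.J → ℕ} (hd : ∀ k, d' (e k) = d k) (hk : d k₀ = 0) (b : C.H Y)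
    (l : Multiset (C.H Y)) :
    (V.num m).gw d ((m.h C k₀ * b) ::ₘ l) = (V.num n).gw d' ((b ::ₘ l).map (C.pb j)) := by
  obtain ⟨M, _, _, a, rfl, -⟩ := Ev.exists_idx l
  have hc : n.toPre.cod = m.toPre.cod + 1 := by
    have h1 := Syz.dim_add_cod n.toPre
    have h2 := Syz.dim_add_cod m.toPre
    have h3 := adim_rx (Syz.rxD D)
    have h4 := hD.dim_eq
    omega
  have hR : Rk (add m.tgt (Syz.mh_X k₀ i₀)) (m.toPre.cod + 1) d := fun E _ _ _ t ht _ hO x => by
    obtain ⟨z, hz⟩ := (Syz.rxD D).pt_surjective (t.ev x)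
    have h1 := nz_ev t ht x
    have h2 := hO x
    rw [← hz] at h1 h2 ⊢
    rw [← Rx.Nm_tgt, ← hc]
    exact Syz.finrank_Nm_hyp D h0 hD (((Syz.rxD D).nz_pt z).1 h1) (((Syz.rxD D).on_tgt _ z).2 h2)
  have hM := Ev.mcls (V.evAx m) fun q : Option M => q.elim b a
  have h0' : dot (Pi.single k₀ 1) d = 0 := by
    rw [dot, Finset.sum_eq_single k₀ (fun b _ hb => by simp [hb]) (by simp)]
    simp [hk]
  have h3 := hE B V.hB m.tgt (Syz.mh_X k₀ i₀) m.toPre.cod d (MvPolynomial.X_ne_zero _) h0'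
    (V.good m d)
  have h1 := @h3 hR (Option M) _ (prd fun q => (V.I.e m.toPre).fam (q.elim b a)) none hM
  have h2 := V.gw_rs D (Syz.same_hyp D h0 hD).symm hd fun q : Option M => q.elim b a
  rw [← map_option b, Multiset.map_map, Ev.gw_cons (V.a0 m d)]
  refine Eq.trans ?_ (h1.trans h2)
  simp only [lw_single]
  refine GW_congr (V.a0 m d) (Ev.mcls_cons (V.evAx m) _ _)
    (mcls_mul (mcls_at (cls_hc V.hB k₀) none) hM) fun E _ _ _ z h1 h2 => ?_
  rw [prd_option, map_mul, mul_assoc]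
  exact congrArg (· * _) (V.hI.hc _ k₀ E _ (h1 none) (Pre.on_iff.1 (h2 none)))

/-- **END** -/
theorem hyp (hE : End66.EndStmt) : V.gw.END := by
  intro X Y j m n e hr k₀ i₀ h0 hD d d' hd hk b l
  obtain ⟨D⟩ : Nonempty (RsD j m.toPre n.toPre e.symm) := exists_rsD fun k => by
    have := hr (e.symm k)
    rwa [e.apply_symm_apply] at this
  rcases eq_or_ne l 0 with rfl | hl
  · rw [Multiset.map_zero, V.op_one, V.op_one, map_zero]
  refine V.pd.eq_push fun y => ?_
  rw [mul_comm, V.itg_op' m d hl, mul_comm _ (C.pb j y), V.itg_op' n d' (by simpa using hl),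
    Multiset.cons_swap, Multiset.cons_swap (C.pb j y), ← Multiset.map_cons, ← Multiset.map_cons]
  exact V.gw_hyp hE D h0 hD (fun k => by rw [← hd, e.apply_symm_apply]) hk b _

end Vir

end Crest.Agent.X262.Gwb
end
end

-- ▼ part X262/Syz/Cd
section

/-!
# Row 262, road B (helper26): equations of the concave end

* `sat_pt` : a coordinate point times a projective space;
* `sat_cd` : the equations of `Y × S × point`.
-/

set_option autoImplicit false
set_option linter.unusedSectionVars false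

open MvPolynomial

noncomputable section

namespace Crest.Agent.X262.Syz

open Crest.Agent.X277 Crest.Agent.X277.BD Crest.Agent.R274.Prod1_134
open Crest.Agent.X262.Coh Crest.Agent.X262.Gwb Crest.Agent.X262.Vb Crest.Agent.X262.End66

theorem hom_aeval {σ τ M N : Type} [AddCommMonoid M] [AddCommMonoid N] {w : σ → M} {w' : τ → N}
    (ψ : M →+ N) {f : σ → MvPolynomial τ ℂ} (hf : ∀ i, (f i).IsWeightedHomogeneous w' (ψ (w i)))
    {G : MvPolynomial σ ℂ} {κ : M} (h : G.IsWeightedHomogeneous w κ) :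
    (aeval f G).IsWeightedHomogeneous w' (ψ κ) := by
  induction h using IsWeightedHomogeneous.induction_on with
  | zero => rw [map_zero]; exact isWeightedHomogeneous_zero _ _ _
  | add p q _ _ hp hq => rw [map_add]; exact hp.add hq
  | monomial d r hr =>
    rw [aeval_monomial, ← hr, Finsupp.weight_apply, Finsupp.sum, map_sum]
    refine IsWeightedHomogeneous.C_mul (IsWeightedHomogeneous.prod _ _ _ fun i _ => ?_) r
    rw [map_nsmul]
    exact (hf i).pow _

/-- a coordinate point times a projective space -/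
theorem sat_pt {io : Option Unit → Type} [∀ j, Fintype (io j)] [∀ j, DecidableEq (io j)]
    {P : Type} [Fintype P] (f : Option P ≃ io none) {K : Type} [Field K] [Algebra ℂ K]
    {y : Pnt io K} (h0 : y none (f none) = 1) (h1 : ∀ p, y none (f (some p)) = 0)
    (h2 : ∀ (m : ℕ) (q : MvPolynomial (io (some ())) ℂ), q.IsHomogeneous m →
      aeval (y (some ())) q = 0 → q = 0) :
    Sat (⟨fun p => X ⟨none, f (some p)⟩, fun _ => Pi.single none 1, fun _ => mh_X _ _⟩ : Tgt io P)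
      y := by
  refine ⟨fun p => (aeval_X _ _).trans (h1 p), fun q κ hq hy c => ⟨0, ?_⟩⟩
  rw [pow_zero, one_mul, ← Ideal.Quotient.eq_zero_iff_mem]
  let φ : Vr io → MvPolynomial (io (some ())) ℂ := fun v =>
    match v with
    | ⟨none, i⟩ => if i = f none then 1 else 0
    | ⟨some (), i⟩ => X i
  have h3 : aeval φ q = 0 := by
    refine h2 (κ (some ())) _ (hom_aeval (Pi.evalAddMonoidHom (fun _ => ℕ) (some ())) ?_ hq) ?_
    · rintro ⟨_ | ⟨⟨⟩⟩, i⟩
      · simp only [φ]
        split_ifs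
        exacts [isWeightedHomogeneous_one _ _, isWeightedHomogeneous_zero _ _ _]
      · exact isWeightedHomogeneous_X _ _ _
    · rw [comp_aeval_apply, ← hy]
      congr 2
      funext ⟨j, i⟩
      rcases j with _ | ⟨⟨⟩⟩
      · obtain ⟨_ | p, rfl⟩ := f.surjective i <;> simp [φ, h0, h1]
      · exact aeval_X _ _
  set I := Ideal.span (Set.range fun p => (X ⟨none, f (some p)⟩ : MvPolynomial (Vr io) ℂ))
  let ρ : MvPolynomial (io (some ())) ℂ →ₐ[ℂ] MvPolynomial (Vr io) ℂ ⧸ I :=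
    aeval fun i => Ideal.Quotient.mk I (X ⟨some (), i⟩)
  have h4 := aeval_scale (k := ℂ) (blk := Sigma.fst)
    (fun j => j.elim (Ideal.Quotient.mk I (X ⟨none, f none⟩)) fun _ => 1) (fun v => ρ (φ v)) hq
  rw [← comp_aeval_apply φ ρ, h3, map_zero, mul_zero] at h4
  rw [← h4]
  change Ideal.Quotient.mkₐ ℂ I q = _
  rw [← aeval_X_left_apply q, comp_aeval_apply, aeval_X_left_apply]
  congr 2
  funext ⟨j, i⟩
  rcases j with _ | ⟨⟨⟩⟩
  · obtain ⟨_ | p, rfl⟩ := f.surjective i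
    · simp [φ]
    · simp only [φ, f.apply_eq_iff_eq, reduceCtorEq, if_false, map_zero, mul_zero]
      exact Ideal.Quotient.eq_zero_iff_mem.2 (Ideal.subset_span ⟨p, rfl⟩)
  · simp [φ, ρ]

/-- **the equations of the concave end** -/
theorem sat_cd {Y S : SV} (hS : IsProj S) (n : Pre Y) {J : Type} [Fintype J] [DecidableEq J]
    {io : J → Type} [∀ j, Fintype (io j)] [∀ j, DecidableEq (io j)] (r : Conc78.Cd n.io io)
    {y' : Pnt io (Y.prod S).F} (hz : NZ y') (h1 : Rst (fst Y S) n (r.pr y'))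
    (eS : Fin (S.P.N + 1) ≃ io (r.e (some none))) (u : S.F) (c : (Y.prod S).F)
    (h2 : ∀ b, y' _ (eS b) = c * (snd Y S).p.π (S.P.y b / u))
    (h3 : ∀ p, y' _ (r.f (some p)) = 0) : Sat (sum (r.tgt n.tgt) r.cn.xT) y' := by
  let α := pα ℂ Y.F S.F
  let β := pβ ℂ Y.F S.F
  choose u₁ c₁ _ h4 using h1.2
  let g₂ : Option Unit → J := fun o => r.e (o.map fun _ => none)
  let y₂ : Pnt (fun o => io (g₂ o)) S.F := fun o =>
    match o with
    | none => fun i => if i = r.f none then 1 else 0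
    | some () => fun i => S.P.y (eS.symm i)
  let d : J → (Y.prod S).F := fun j =>
    (r.e.symm j).elim (y' _ (r.f none)) fun o => o.elim (c / β u) fun k => c₁ k / α (u₁ k)
  have e₁ : ∀ k i, y' (r.e (some (some k))) (r.ei k i) =
      d (r.e (some (some k))) * α (py n k i) := fun k i => by
    refine (h4 k i).trans ?_
    simp only [d, Equiv.symm_apply_apply, Option.elim]
    change _ * α _ = _
    rw [map_div₀]
    ring
  have e₂ : ∀ o i, y' (g₂ o) i = d (g₂ o) * β (y₂ o i) := by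
    rintro (_ | ⟨⟨⟩⟩) i
    · obtain ⟨_ | p, rfl⟩ := r.f.surjective i
      · simp [d, g₂, y₂]
      · simp [y₂, g₂, h3]
    · obtain ⟨b, rfl⟩ := eS.surjective i
      refine (h2 b).trans ?_
      simp only [d, g₂, y₂, Option.map, Equiv.symm_apply_apply, Option.elim]
      change _ * β _ = _
      rw [map_div₀]
      ring
  refine sat_prod (g₁ := fun k => r.e (some (some k))) (fun _ _ h => by simpa using h) r.ei
    (g₂ := g₂) ?_ (fun _ => Equiv.refl _) ?_ ?_ (isPF ℂ Y.F S.F).inj (c := d) ?_ e₁ e₂ (sat_pre n)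
    (sat_pt (io := fun o => io (g₂ o)) r.f (by simp [y₂]) (fun p => by simp [y₂])
      fun m q hq h0 => ?_) ?_ (fun a => Ideal.subset_span ⟨.inl a, rfl⟩)
    fun p => Ideal.subset_span ⟨.inr p, (rename_X (subV g₂ fun _ => Equiv.refl _)
      ⟨none, r.f (some p)⟩).symm⟩
  · rintro (_ | ⟨⟨⟩⟩) (_ | ⟨⟨⟩⟩) h <;> simp [g₂] at h ⊢
  · rintro k (_ | ⟨⟨⟩⟩) <;> simp [g₂]
  · intro j
    obtain ⟨_ | _ | k, rfl⟩ := r.e.surjective j
    exacts [.inr ⟨none, rfl⟩, .inr ⟨some (), rfl⟩, .inl ⟨k, rfl⟩]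
  · intro j h0
    obtain ⟨i, hi⟩ := hz j
    obtain ⟨_ | _ | k, rfl⟩ := r.e.surjective j
    · exact hi ((e₂ none i).trans (mul_eq_zero_of_left h0 _))
    · exact hi ((e₂ (some ()) i).trans (mul_eq_zero_of_left h0 _))
    · obtain ⟨i, rfl⟩ := (r.ei k).surjective i
      exact hi ((e₁ k i).trans (mul_eq_zero_of_left h0 _))
  · exact rename_injective _ eS.symm.injective
      ((hS m _ hq.rename_isHomogeneous ((aeval_rename _ _ _).trans h0)).trans (map_zero _).symm)
  · rintro (a | p)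
    · exact (r.on_tgt _ _).2 (h1.on (sat_pre n).on) a
    · exact (aeval_X _ _).trans (h3 p)

end Crest.Agent.X262.Syz
end
end

-- ▼ part X262/Syz/Nv
section

/-!
# Row 262, road B (helper26): the normal vector of the concave end

* `nv_of` : from a jump of the rank of the Jacobian;
* `Rst.pre` : the restriction of an embedding to a subvariety; `nv_dv`;
* `sat_dv`, `loc_uT`, `nv_cv` : the divisor `C - (U + S)` is cut out by the `ξ_p`.
-/

set_option autoImplicit false
set_option linter.unusedSectionVars false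

open MvPolynomial

noncomputable section

namespace Crest.Agent.X262.Syz

open Crest.Agent.X277 Crest.Agent.X277.Lef Crest.Agent.X277.AN.G1 Crest.Agent.X277.BD
  Crest.Agent.X277.BD.Br
open Crest.Agent.X262.Coh Crest.Agent.X262.Gwb Crest.Agent.X262.Vb Crest.Agent.X262.End66
open Crest.Agent.X262.Conc78 (Cn)

section Gen

variable {J : Type} [Fintype J] [DecidableEq J] {io : J → Type} [∀ j, Fintype (io j)]
  [∀ j, DecidableEq (io j)] {A A' : Type} [Fintype A] [Fintype A'] {E : Type} [Field E]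
  [Algebra ℂ E]


theorem sum_pderiv_X (y : Pnt io E) (w : Vr io → E) (v : Vr io) :
    ∑ u, pv y (pderiv u (X v)) * w u = w v := by
  rw [Finset.sum_eq_single v]
  · simp [pv]
  · intro u _ hu
    simp [pv, pderiv_X_of_ne hu.symm]
  · simp

theorem sum_pderiv_mul (y : Pnt io E) (w : Vr io → E) (p q : MvPolynomial (Vr io) ℂ) :
    ∑ u, pv y (pderiv u (p * q)) * w u =
      pv y p * ∑ u, pv y (pderiv u q) * w u + pv y q * ∑ u, pv y (pderiv u p) * w u := by
  simp only [pv, Derivation.leibniz, smul_eq_mul, map_add, map_mul, add_mul, mul_assoc,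
    Finset.sum_add_distrib, Finset.mul_sum]

/-- the normal vector of the end from a jump of the rank -/
theorem nv_of (n : Cn io) (T : Tgt io A) (hu : ∀ b, Loc T (n.uT.F b))
    (hr : ∀ (E : Type) [Field E] [Algebra ℂ E] (y : Pnt io E), NZ y → (sum T n.xT).On y →
      Module.finrank E (T.Nm y) ≠ Module.finrank E ((sum T n.xT).Nm y)) : n.Nv T := by
  classical
  intro E _ _ y hy hT
  have h1 : T.On y := fun a => hT (.inl a)
  have h2 : ∀ p, pv y (n.xi p) = 0 := fun p => hT (.inr p)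
  obtain ⟨w, hw, p, hp⟩ : ∃ w, T.jac y w = 0 ∧ ∃ p, w ⟨n.jC, n.f (some p)⟩ ≠ 0 := by
    by_contra hn
    push Not at hn
    have e : LinearMap.ker (T.jac y) = LinearMap.ker ((sum T n.xT).jac y) :=
      Submodule.ext fun w => ⟨fun h => funext fun a => by
        rcases a with a | p
        exacts [congrFun h a, (sum_pderiv_X y w _).trans (hn w h p)],
        fun h => funext fun a => congrFun h (.inl a)⟩
    have e1 := (T.jac y).finrank_range_add_finrank_ker
    have e2 := ((sum T n.xT).jac y).finrank_range_add_finrank_ker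
    rw [← e, ← e1] at e2
    exact hr E y hy hT (Nat.add_right_cancel e2).symm
  have h3 : ∀ p q, w ⟨n.jC, n.f (some p)⟩ * pv y (n.tp q) =
      w ⟨n.jC, n.f (some q)⟩ * pv y (n.tp p) := fun p q => by
    have h4 : ∑ u, pv y (pderiv u (n.xi p * n.tp q - n.xi q * n.tp p)) * w u = 0 :=
      congrFun (ker_jac_le (F := T.F) (F' := n.uT.F) h1 (fun b => hu b E y hy h1) hw) (p, q)
    simp only [map_sub, pv, sub_mul, Finset.sum_sub_distrib] at h4
    have h5 := sum_pderiv_mul y w (n.xi p) (n.tp q)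
    have h6 := sum_pderiv_mul y w (n.xi q) (n.tp p)
    rw [h2, zero_mul, zero_add, Cn.xi, sum_pderiv_X] at h5 h6
    exact (mul_comm _ _).trans (h5.symm.trans ((sub_eq_zero.1 h4).trans (h6.trans (mul_comm _ _))))
  obtain ⟨a, ha⟩ := hy n.jU
  obtain ⟨b, hb⟩ := hy n.jS
  have h7 : pv y (n.tp (a, b)) ≠ 0 := by
    simpa [pv, Cn.tp] using ⟨ha, hb⟩
  have h8 : pv y (n.tp p) ≠ 0 := fun h0 =>
    mul_ne_zero hp h7 (by rw [h3, h0, mul_zero])
  refine ⟨(pv y (n.tp p) / w ⟨n.jC, n.f (some p)⟩) • w, by rw [map_smul, hw, smul_zero],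
    fun q => ?_⟩
  rw [Pi.smul_apply, smul_eq_mul, div_mul_eq_mul_div, mul_comm, ← h3, mul_div_cancel_left₀ _ hp]

end Gen

variable {X B : SV} {i : Hom X B} {m : Pre B} {y' : Pnt (PIo m) X.F}

theorem Rst.rs (h : Rst i m y') (k : m.J) : Rs i (m.T k) ⟨(m.T k).io, y' k⟩ := by
  obtain ⟨u, c, h1, h2⟩ := h.2 k
  exact ⟨Equiv.refl _, u, c, h1, h2⟩

/-- the restriction of an embedding to a subvariety -/
def Rst.pre (h : Rst i m y') (hi : IsEmb i) : Pre X where
  J := m.J
  T k := ⟨(m.T k).io, y' k⟩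
  reg k := End36.rs_reg (h.rs k) (h.1 k) (m.reg k)
  emb := End36.IsE.res hi m.emb (g := id) h.rs h.1

theorem Rst.gen (h : Rst i m y') (hi : IsEmb i) : Gen y' := gen_py (h.pre hi)

theorem Rst.smCh (h : Rst i m y') (hi : IsEmb i) : SmCh y' := smCh_py (h.pre hi)

theorem Rst.dim_add (h : Rst i m y') (hi : IsEmb i) : X.dim + cod y' = adim m.io :=
  dim_add_cd (h.pre hi)

/-- the rank of the equations of a subvariety -/
theorem Rst.finrank_Nm (h : Rst i m y') (hi : IsEmb i) {A : Type} [Fintype A] {T : Tgt m.io A}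
    (hT : Sat T y') {E : Type} [Field E] [Algebra ℂ E] {η : Pnt m.io E} (hη : NZ η)
    (h0 : T.On η) : X.dim + Module.finrank E (T.Nm η) = adim m.io := by
  rw [hT.finrank_Nm h.1 (h.gen hi) (h.smCh hi) hη h0, h.dim_add hi]

/-- **the normal vector of the end** -/
theorem nv_dv (hi : IsEmb i) (hd : X.dim ≠ B.dim) (n : Cn m.io) (h : Rst i m y')
    (hu : ∀ b, pv (py m) (n.uT.F b) = 0) (hs : Sat (sum m.tgt n.xT) y') : n.Nv m.tgt := by
  refine nv_of n _ (fun b E _ _ η hη _ => (sat_pre m).loc (n.uT.hom b) (hu b) hη)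
    fun E _ _ η hη hT e => hd ?_
  have h1 := h.finrank_Nm hi hs hη hT
  have h2 := dim_add_cod m
  rw [← e, finrank_Nm_pre m hη (Pre.on_iff.1 fun a => hT (.inl a))] at h1
  omega





end Crest.Agent.X262.Syz
end
end

-- ▼ part X262/Gwb59/Conc

/-!
# Row 262, GW seam (helper59): concavity at class level

* `rs_chg`, `Pre.res`, `Pre.resD` : restriction of an embedding, with the same index sets;
* `sat_xT` : the equations of the concave end;
* `Vir.conc : ConcF → ConcStmt V.gw`.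
-/

set_option autoImplicit false
set_option linter.unusedSectionVars false

noncomputable section

namespace Crest.Agent.X262.Gwb

open Crest.Agent.X277 Crest.Agent.X277.Lef Crest.Agent.X277.AN.G1 Crest.Agent.X277.BD
  Crest.Agent.X277.BD.Br
open Crest.Agent.X262.Coh Crest.Agent.X262.Vb Crest.Agent.X262.Qn Crest.Agent.X262.End66
open Crest.Agent.X262.End36 (exists_at div_mem_at)
open Crest.Agent.X262.Conc78 (Cn Cd ConcF)
open Crest.Agent.X262.Syz (Sat Rst)

variable {X Y Z : SV}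

/-- two restrictions of a tuple are proportional -/
theorem rs_chg {μ : Hom X Y} {ν : Hom X Z} {t : Tup Y.F} {s : Tup Z.F} {p : Tup X.F}
    (h0 : ∃ i, p.y i ≠ 0) (h1 : Rs μ t p) (h2 : Rs ν s p) {u : Y.F}
    (hu : ∀ l, t.y l / u ∈ μ.p.O) : Rs ν s ⟨t.io, fun l => μ.p.π (t.y l / u)⟩ := by
  obtain ⟨e₁, u₁, c₁, h3, h4⟩ := h1
  obtain ⟨e₂, u₂, c₂, h5, h6⟩ := h2
  obtain ⟨i, hi⟩ := h0
  obtain ⟨i, rfl⟩ := e₁.surjective i
  refine ⟨e₂.trans e₁.symm, u₂, μ.p.π (t.y i / u) / p.y (e₁ i) * c₂, h5, fun l => ?_⟩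
  rw [mul_assoc, ← h6, Equiv.trans_apply]
  obtain ⟨l, hl⟩ := e₁.surjective (e₂ l)
  rw [← hl, Equiv.symm_apply_apply, div_mul_eq_mul_div, eq_div_iff hi, h4, h4, mul_left_comm,
    mul_left_comm _ c₁, ← μ.p.π_mul (hu _) (h3 _), ← μ.p.π_mul (hu _) (h3 _)]
  congr 2
  ring

namespace Pre

variable (m : Pre Y) (μ : Hom X Y)

theorem exists_den (j : m.J) : ∃ u, (∀ l, m.y j l / u ∈ μ.p.O) ∧ ∃ l, μ.p.π (m.y j l / u) ≠ 0 := by
  obtain ⟨x⟩ : Nonempty X.Pt := inferInstance
  obtain ⟨i, hi⟩ := exists_at (m.reg j) (μ.map x)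
  refine ⟨m.y j i, fun l => μ.mem_O (div_mem_at hi l), i, ?_⟩
  rw [div_self (show m.y j i ≠ 0 from hi.ne), Plc.π_one]
  exact one_ne_zero

/-- the denominators -/
def den (j : m.J) : Y.F := (m.exists_den μ j).choose

/-- the restricted tuples -/
def resT (j : m.J) : Tup X.F := ⟨m.io j, fun l => μ.p.π (m.y j l / m.den μ j)⟩

theorem rs_resT (j : m.J) : Rs μ (m.T j) (m.resT μ j) :=
  ⟨Equiv.refl _, m.den μ j, 1, (m.exists_den μ j).choose_spec.1, fun _ => (one_mul _).symm⟩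

theorem resT_ne (j : m.J) : ∃ l, (m.resT μ j).y l ≠ 0 := (m.exists_den μ j).choose_spec.2

variable {μ} (hμ : IsEmb μ)

/-- the restriction of an embedding -/
def res : Pre X where
  J := m.J
  T := m.resT μ
  reg j := End36.rs_reg (m.rs_resT μ j) (m.resT_ne μ j) (m.reg j)
  emb := End36.IsE.res hμ m.emb (g := id) (m.rs_resT μ) (m.resT_ne μ)

/-- the data of the restriction -/
def resD : RsD μ m (m.res hμ) id :=
  ⟨fun _ => Equiv.refl _, m.den μ, fun _ => 1, fun j => (m.exists_den μ j).choose_spec.1,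
    fun _ _ => (one_mul _).symm⟩

theorem rst_res : Rst μ m (m.res hμ).y := Syz.rst_rsD (m.resD hμ)

end Pre

/-- the equations of the concave end -/
theorem sat_xT {μ : Hom X Y} {m : Pre Y} {y' : Pnt m.io X.F} (h : Rst μ m y') (n : Cn m.io)
    (cv : ∀ a b, m.y n.jC (n.f (some (a, b))) = m.y n.jU a * m.y n.jS b)
    (hD : IsDv μ ((m.T n.jC).bd - ((m.T n.jU).bd + (m.T n.jS).bd))) :
    Sat (sum m.tgt n.xT) y' := by
  classical
  have key : ∀ (x : Y.Pt) (c : ∀ j, m.io j), (∀ j, At (m.T j).bd x (m.y j (c j))) →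
      At (-((m.T n.jC).bd - ((m.T n.jU).bd + (m.T n.jS).bd))) x
        (m.y n.jC (n.f (some (c n.jU, c n.jS))) / m.y n.jC (c n.jC)) := fun x c hx => by
    have h3 := ((hx n.jC).sub ((hx n.jU).add (hx n.jS))).neg
    rwa [inv_div, ← cv] at h3
  have key' : ∀ (x : X.Pt) (c : ∀ j, m.io j), (∀ j, At (m.T j).bd (μ.map x) (m.y j (c j))) →
      ∀ f ∈ (lp (μ.map x)).O, μ.p.π f = 0 ↔
        f / (m.y n.jC (n.f (some (c n.jU, c n.jS))) / m.y n.jC (c n.jC)) ∈ (lp (μ.map x)).O := by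
    intro x c hx f hf
    obtain ⟨t, -, h1, h2⟩ := hD.eqn x
    have h4 := h1.neg
    rw [inv_inv] at h4
    exact (h2 f hf).trans ⟨h4.chg (key _ c hx), (key _ c hx).chg h4⟩
  refine Syz.sat_sub h (Syz.sat_pre m) (fun a => Ideal.subset_span ⟨.inl a, rfl⟩) ?_
    fun x c hc hx h0 => ?_
  · rintro (a | ⟨a, b⟩)
    · exact h.on (Syz.sat_pre m).on a
    · obtain ⟨x⟩ : Nonempty X.Pt := inferInstance
      obtain ⟨c, hc, hx⟩ := Syz.exists_sec m (μ.map x)
      obtain ⟨c, rfl⟩ := Pre.exists_ch hc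
      refine (h.π_eq_zero hc hx (n.mh_xi (a, b))).1 ?_
      rw [Cn.xi, MvPolynomial.aeval_X]
      refine (key' x c hx _ (div_mem_at (hx n.jC) _)).2 ?_
      change m.y n.jC (n.f (some (a, b))) / m.y n.jC (c n.jC) / _ ∈ _
      rw [div_div_div_cancel_right₀ (show m.y n.jC (c n.jC) ≠ 0 from (hx n.jC).ne), cv, cv,
        mul_div_mul_comm]
      exact mul_mem (div_mem_at (hx n.jU) a) (div_mem_at (hx n.jS) b)
  · obtain ⟨c, rfl⟩ := Pre.exists_ch hc
    have e : MvPolynomial.aeval (Syz.afc m fun j => ⟨j, c j⟩)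
        ((sum m.tgt n.xT).F (.inr (c n.jU, c n.jS))) =
        m.y n.jC (n.f (some (c n.jU, c n.jS))) / m.y n.jC (c n.jC) := MvPolynomial.aeval_X _ _
    obtain ⟨x', rfl⟩ : x ∈ Set.range μ.map := by
      by_contra hn
      have h2 := (key x c hx).ev_div_ne (hD.off x hn).neg
      rw [inv_one, div_one, ← e] at h2
      exact h2 (h0 _)
    refine ⟨x', rfl, fun f hf hπ => ⟨Pi.single (.inr (c n.jU, c n.jS))
      (f / (m.y n.jC (n.f (some (c n.jU, c n.jS))) / m.y n.jC (c n.jC))), fun b => ?_, ?_⟩⟩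
    · rw [Pi.single_apply]
      split_ifs
      exacts [(key' x' c hx f hf).1 hπ, zero_mem _]
    · rw [Finset.sum_eq_single (.inr (c n.jU, c n.jS)) (fun b _ hb => by simp [hb]) (by simp),
        Pi.single_eq_same, e, div_mul_cancel₀ _ (key _ c hx).ne]

/-- **concavity** -/
theorem Vir.conc {C : Coh.Th} {B : Hb.Th} (V : Vir C B) (hF : ConcF) :
    ConcStmt V.gw := by
  intro Y S W i m n p hS d d' d1 d2 d3 d4 x l hl hc
  rcases lt_or_ge (Multiset.card l) 2 with h2 | h2
  · refine ⟨1, one_ne_zero, ?_⟩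
    rw [V.low m d _ (by simpa using h2), V.low n d' _ (by simpa using h2)]
    simp
  rw [V.itg_op m d (by simpa using h2), V.itg_op n d' (by simpa using h2), ← Multiset.map_cons,
    ← Multiset.map_cons (fun z : C.H W × C.H Y × C.H Y => z.2.2)]
  obtain ⟨M, _, _, a, ha, hM⟩ := Ev.exists_idx (x ::ₘ l)
  have hi := p.dv.emb
  let P := m.toPre.res hi
  obtain ⟨D⟩ : Nonempty (RsD (fst Y S) n.toPre P fun k => p.e (some (some k))) :=
    exists_rsD fun k => (p.rsY k).elim fun t ht =>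
      rs_chg ht.1.1 ht.2.1 ht.2.2 (m.toPre.exists_den i _).choose_spec.1
  have hr : Rs (snd Y S) (ownT S) (P.T (p.e (some none))) := p.rsS.elim fun t ht =>
    rs_chg ht.1.1 ht.2.1 ht.2.2 (m.toPre.exists_den i _).choose_spec.1
  let r : Cd n.toPre.io m.toPre.io := ⟨p.e, D.e, p.jU, p.f⟩
  have h3 : Sat (sum m.tgt r.cn.xT) P.y := sat_xT (m.toPre.rst_res hi) r.cn p.cv p.dv
  have h4 : ∀ b, pv m.toPre.y (r.cn.uT.F b) = 0 := fun b => by
    simp only [pv, Cn.uT, Cn.xi, Cn.tp, map_sub, map_mul, MvPolynomial.aeval_X]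
    exact sub_eq_zero.2 ((congrArg (· * _) (p.cv b.1.1 b.1.2)).trans
      ((mul_comm _ _).trans (congrArg (· * _) (p.cv b.2.1 b.2.2)).symm))
  have h5 : C.pb (snd Y S) (C.hc S) = P.h C (p.e (some none)) :=
    End36.rs_pb_c1 V.man hr (P.reg _).1 (End36.reg_own S)
  obtain ⟨eS, u, c, -, h6⟩ := hr
  have h7 : Sat (sum (r.tgt n.tgt) r.cn.xT) P.y := Syz.sat_cd hS n.toPre r P.nz_y
    (Syz.rst_rsD D) eS u c h6 fun q => by
      have := h3.on (.inr q)
      rwa [show (sum m.tgt r.cn.xT).F (.inr q) = r.cn.xi q from rfl, pv, Cn.xi,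
        MvPolynomial.aeval_X] at this
  have h8 : (d : m.J → ℕ) = r.up d' := funext fun j => by
    obtain ⟨_ | _ | k, rfl⟩ := p.e.surjective j
    exacts [d1.trans (r.up_C _).symm, d2.trans (r.up_S _).symm, (d3 k).trans (r.up_k _ k).symm]
  rw [← ha, Multiset.map_map, Multiset.map_map, Ev.gw_eq (V.a0 m d), Ev.gw_eq (V.a0 n d'), h8]
  have h11 := hF B V.hB r m.tgt _ n.tgt _ d' d4 (V.good m _) (V.good n _)
    (fun b => loc_of_mem ((Syz.cut_pre m.toPre).mem (r.cn.uT.hom b) (h4 b))) (h3.same h7)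
  refine @h11 (Syz.nv_dv hi (by have := p.dv.dim_eq; omega) _ (m.toPre.rst_res hi) h4 h3) M _
    (fun q => (V.I.e m.toPre).fam (a q).1) (fun q => (V.I.e n.toPre).fam (a q).2.1)
    (fun q => (V.I.e n.toPre).fam (a q).2.2) (fun _ => V.hI.cls _ _) (fun _ => V.hI.cls _ _)
    (fun _ => V.hI.cls _ _) (fun q E _ _ _ z hz hO => ?_) ?_
  · have h9 : P.On z := (h3.on_iff hz).1 hO
    have h10 := congrArg (V.I.ev P E z)
      (hl (a q) (ha ▸ Multiset.mem_map_of_mem _ (Finset.mem_univ q)))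
    rw [map_add, map_mul, V.hI.rs (m.toPre.resD hi) E z hz h9, V.hI.rs D E z hz h9,
      V.hI.rs D E z hz h9, h5, V.hI.hc P (p.e (some none)) E z hz h9] at h10
    exact h10
  · rw [hM, Multiset.card_cons, ← add_assoc, ← hc]
    exact (Fintype.card_congr eS).symm.trans (Fintype.card_fin _)

end Crest.Agent.X262.Gwb
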